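/-
R242 / Core / Iface : THE CONTRACT between the geometric/analytic packages (LOC, LIFT, ALG) and the abstract proof (CORE).
Architect: helper100.

CORE proves  `Iface.main : I.Gen`  for every `I : Iface K Pt`  (paper Sections 3-6, by contradiction).
LOC + LIFT + ALG construct an `Iface` for a closed point `x` of the model, with `Gen` = "K_X + mm L is generated at x".

DICTIONARY (MEMO 2 of helper73).
 * `Pt`      : a neighbourhood of `x` in the classical topology (e.g. a polydisc D in the coordinates at `x`).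
 * `S.R j`   : H^0(X, jL) inside the function field `K`.
 * `GChart`  : a "graded Taylor chart": for a holomorphic map `π : polydisc → D`, `T j s` = Taylor series at `0` of
               `(s * lam_x^j) ∘ π`.   Linear and injective on `R j`, multiplicative.
 * `TC z G k`: `G` comes from an admissible `π` with `π 0 = z` and `Jac π = unit * ∏ y_i^(k i)`  (Z1).
 * a TEST at `z` is `(G, k, u)` with `TC z G k`, `u ≥ 0`, `u ≠ 0`;  `v(s) = wOrd u (G.T j s)`,  `A(v) = disc k u = ∑ u_i (1 + k_i)`.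
 * `IsPt G σ`: `π` is constant on the stratum `{y_i = 0, i ∈ σ}`.
-/
import Mathlib
import Claimed.Agent.R242.Cvx.WOrd

set_option autoImplicit false

namespace Claimed.Agent.R242

open Filter Topology

/-- the graded pieces `R_j = H^0(X, jL)` inside the function field -/
structure SecRing (K : Type*) [Field K] [Algebra ℂ K] where
  R : ℕ → Submodule ℂ K
  fin : ∀ j, FiniteDimensional ℂ (R j)
  mul_mem : ∀ i j a b, a ∈ R i → b ∈ R j → a * b ∈ R (i + j)

section

variable {K : Type*} [Field K] [Algebra ℂ K]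

/-- `N_j = dim R_j` -/
noncomputable def SecRing.N (S : SecRing K) (j : ℕ) : ℕ := Module.finrank ℂ (S.R j)

/-- an ordered basis of `R_m` -/
def SecRing.IsBasis (S : SecRing K) (m : ℕ) (s : Fin (S.N m) → K) : Prop :=
  (∀ i, s i ∈ S.R m) ∧ LinearIndependent ℂ s

/-- graded Taylor chart -/
structure GChart (S : SecRing K) (n : ℕ) where
  T : ℕ → K → MvPowerSeries (Fin n) ℂ
  add : ∀ j a b, a ∈ S.R j → b ∈ S.R j → T j (a + b) = T j a + T j b
  smul : ∀ j (c : ℂ) a, a ∈ S.R j → T j (c • a) = c • T j a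
  inj : ∀ j a, a ∈ S.R j → T j a = 0 → a = 0
  mul : ∀ i j a b, a ∈ S.R i → b ∈ S.R j → T (i + j) (a * b) = T i a * T j b

/-- log discrepancy of the monomial valuation with weights `u` when `Jac = unit * y^k` -/
noncomputable def disc {n : ℕ} (k : Fin n → ℕ) (u : Fin n → ℝ) : ℝ := ∑ i, u i * (1 + (k i : ℝ))

/-- support of a weight vector -/
noncomputable def wsupp {n : ℕ} (u : Fin n → ℝ) : Finset (Fin n) := Finset.univ.filter fun i => u i ≠ 0

/-- the exponent `Fin n →₀ ℕ` of a function -/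
noncomputable def toExp {n : ℕ} (e : Fin n → ℕ) : Fin n →₀ ℕ := Finsupp.equivFunOnFinite.symm e

/-- the objective (4.1): `a` = discrepancy, `ν` = the valuation on `R_m` -/
noncomputable def objF (S : SecRing K) (m : ℕ) (t a : ℝ) (ν : K → ℝ) (s : Fin (S.N m) → K) : ℝ :=
  (∑ i, Real.exp (a / t - ν (s i) / m)) / S.N m

/-- the weights of the perturbed test of Section 5: old weights `u`, `ε` on the tangential coordinates, `ε^2` on the others -/
noncomputable def pertW {n d : ℕ} (u : Fin n → ℝ) (tan : Fin d → Fin n) (ε : ℝ) (i : Fin n) : ℝ :=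
  open Classical in
  u i + ε * (if i ∈ Set.range tan then 1 else 0) + (if u i = 0 ∧ i ∉ Set.range tan then ε ^ 2 else 0)

/-- exponents that involve the tangential variables only -/
def pureExp {n d : ℕ} (tan : Fin d → Fin n) : Set (Fin n →₀ ℕ) := {γ | ∀ i, i ∉ Set.range tan → γ i = 0}

/-- the linear map `R_j → power series` of a graded chart -/
noncomputable def GChart.lin {S : SecRing K} {n : ℕ} (G : GChart S n) (j : ℕ) :
    S.R j →ₗ[ℂ] ((Fin n →₀ ℕ) → ℂ) where
  toFun a := G.T j a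
  map_add' a b := G.add j a b a.2 b.2
  map_smul' c a := G.smul j c a a.2

/-- rank of the restriction of `R_h` to the stratum (= `I_W(h)` of the paper) -/
noncomputable def GChart.resRank {S : SecRing K} {n d : ℕ} (G : GChart S n) (tan : Fin d → Fin n) (h : ℕ) : ℕ :=
  Module.finrank ℂ (LinearMap.range
    ((LinearMap.funLeft ℂ ℂ (fun x : pureExp tan => (x : Fin n →₀ ℕ))).comp (G.lin h)))

/-- every `s i` is `unit * y^(o · i)` in the chart `G` -/
def MonoIn {S : SecRing K} {n : ℕ} (m : ℕ) (s : Fin (S.N m) → K) (G : GChart S n)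
    (o : Fin n → Fin (S.N m) → ℕ) : Prop :=
  ∀ i, ∃ V : MvPowerSeries (Fin n) ℂ, MvPowerSeries.coeff 0 V ≠ 0 ∧
    G.T m (s i) = V * MvPowerSeries.monomial (toExp fun j => o j i) (1 : ℂ)

/-- the order vector `(v_u(s_i))_i = (∑_j u_j o_{j i})_i` of the weights `u` in a cell -/
noncomputable def ow {n N : ℕ} (o : Fin n → Fin N → ℕ) (u : Fin n → ℝ) (i : Fin N) : ℝ :=
  ∑ j, u j * (o j i : ℝ)

end

/-- **The contract.** -/
structure Iface (K : Type*) [Field K] [Algebra ℂ K] (Pt : Type*) [TopologicalSpace Pt] where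
  n : ℕ
  hn : 1 ≤ n
  /-- the adjoint multiple: we want a section of `K_X + mm L` -/
  mm : ℕ
  hmm : n + 1 ≤ mm
  S : SecRing K
  x : Pt
  /-- "`K_X + mm L` is generated at `x`" -/
  Gen : Prop
  TC : Pt → GChart S n → (Fin n → ℕ) → Prop
  IsPt : GChart S n → Finset (Fin n) → Prop
  /-- Taylor expansion at `z` in the coordinates of `Pt` -/
  chart : Pt → GChart S n
  chart_tc : ∀ z, TC z (chart z) 0
  /-- Lemma 4.1: `v(s) ≤ A(v) mult_z(s)`   [(P1) + lct ≥ 1/mult] -/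
  val_le : ∀ z G k (u : Fin n → ℝ), TC z G k → (∀ i, 0 ≤ u i) → ∀ j s, s ∈ S.R j → s ≠ 0 →
    wOrd u (G.T j s) ≤ disc k u * wOrd (fun _ => 1) ((chart z).T j s)
  /-- ALG: volume at least one -/
  Clow : ℝ
  j₁ : ℕ
  card_low : ∀ j, j₁ ≤ j → (j : ℝ) - Clow ≤ ((n.factorial : ℝ) * S.N j) ^ (1 / (n : ℝ))
  /-- ALG: polynomial growth -/
  CN : ℝ
  card_up : ∀ j : ℕ, 1 ≤ j → (S.N j : ℝ) ≤ CN * (j : ℝ) ^ n
  /-- the coordinates are quotients of sections of `k₀ L`, at every point of `Pt`, with the same `k₀` -/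
  k₀ : ℕ
  hk₀ : 1 ≤ k₀
  jets : ∀ z, ∃ σ₀ ∈ S.R k₀, MvPowerSeries.coeff 0 ((chart z).T k₀ σ₀) ≠ 0 ∧
    ∀ i : Fin n, ∃ σ ∈ S.R k₀, (chart z).T k₀ σ = (chart z).T k₀ σ₀ * MvPowerSeries.X i
  /-- sections not vanishing at `z` in all large degrees -/
  b₀ : ℕ
  bpf : ∀ z b, b₀ ≤ b → ∃ τ ∈ S.R b, MvPowerSeries.coeff 0 ((chart z).T b τ) ≠ 0
  /-- LIFT 1 (analytic half of Proposition 3.2): a good configuration of initial exponents at `x` gives generation.
  `w` is an integral weight vector for the Groebner degeneration of the leading forms. -/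
  lift32 : ∀ h D : ℕ, 1 ≤ h → n * h < D → D < (n + 1) * h → ∀ w : Fin n → ℕ,
    (∀ k : Fin n, ∃ r ∈ S.R D, ∃ β : Fin n →₀ ℕ, MvPowerSeries.coeff β ((chart x).T D r) ≠ 0 ∧
      ∑ i, β i = n * h ∧ (∀ i, i ≠ k → β i < h) ∧
      (∀ γ, MvPowerSeries.coeff γ ((chart x).T D r) ≠ 0 → n * h ≤ ∑ i, γ i) ∧
      (∀ γ, MvPowerSeries.coeff γ ((chart x).T D r) ≠ 0 → ∑ i, γ i = n * h → γ ≠ β →
        ∑ i, w i * β i < ∑ i, w i * γ i)) → Gen
  /-- constants of Lemma 5.2 (uniform restriction estimate), depending on the dimension `d` of the centre only -/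
  Cres : ℕ → ℝ
  Hres : ℕ → ℕ
  /-- **Section 5 geometry**: a test at `x` whose centre is not a point has tangential data at points `y l → x`. -/
  tan : ∀ G k (u : Fin n → ℝ), TC x G k → (∀ i, 0 ≤ u i) → u ≠ 0 → ¬ IsPt G (wsupp u) →
    ∃ (d : ℕ) (tn : Fin d → Fin n) (k' : Fin n → ℕ) (y : ℕ → Pt) (G' : ℕ → GChart S n),
      1 ≤ d ∧ Function.Injective tn ∧ (∀ a, u (tn a) = 0) ∧
      (∀ i, u i ≠ 0 → k' i = k i) ∧ (∀ i, u i = 0 → k' i = 0) ∧ Tendsto y atTop (𝓝 x) ∧
      ∀ l, TC (y l) (G' l) k' ∧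
        -- the old valuation is computed in the new chart (Lemma 2.1)
        (∀ j s, s ∈ S.R j → wOrd u ((G' l).T j s) = wOrd u (G.T j s)) ∧
        -- restrictions to the stratum depend on the tangential variables only
        (∀ j s γ, s ∈ S.R j → MvPowerSeries.coeff γ ((G' l).T j s) ≠ 0 → (∀ i, u i ≠ 0 → γ i = 0) →
          γ ∈ pureExp tn) ∧
        -- Lemma 5.2
        (∀ h, Hres d ≤ h → (h : ℝ) - Cres d ≤ ((d.factorial : ℝ) * (G' l).resRank tn h) ^ (1 / (d : ℝ))) ∧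
        -- the tangential coordinates are quotients of sections of `k₀ L`
        (∃ σ₀ ∈ S.R k₀, MvPowerSeries.coeff 0 ((G' l).T k₀ σ₀) ≠ 0 ∧
          ∀ a : Fin d, ∃ σ ∈ S.R k₀, (G' l).T k₀ σ = (G' l).T k₀ σ₀ * MvPowerSeries.X (tn a))
  /-- **Monomialisation of a basis at `x`**: a finite set `𝒟` of numerical data `(k, o)` of cells;
  a CELL is a chart over `x` in which every `s i` is `unit * y^(o · i)`. -/
  mono : ∀ (m : ℕ) (s : Fin (S.N m) → K), S.IsBasis m s →
    ∃ 𝒟 : Finset ((Fin n → ℕ) × (Fin n → Fin (S.N m) → ℕ)),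
      -- (RL) realisation in the limit = (P1) + semicontinuity (SC) + (P2) Howald on the cells
      (∀ (e : Fin (S.N m) → K) (U : Matrix (Fin (S.N m)) (Fin (S.N m)) ℂ), S.IsBasis m e →
        (∀ i, s i = ∑ j, U i j • e j) →
        ∀ (z : ℕ → Pt) (Us : ℕ → Matrix (Fin (S.N m)) (Fin (S.N m)) ℂ) (Gs : ℕ → GChart S n)
          (ks : ℕ → Fin n → ℕ) (us : ℕ → Fin n → ℝ) (α : Fin (S.N m) → ℝ) (c : ℝ),
          Tendsto z atTop (𝓝 x) → Tendsto Us atTop (𝓝 U) → (∀ l, TC (z l) (Gs l) (ks l)) →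
          (∀ l i, 0 ≤ us l i) → (∀ l, us l ≠ 0) → (∀ i, 0 ≤ α i) → (∃ i, 0 < α i) →
          (∀ l i, α i * disc (ks l) (us l) ≤ wOrd (us l) ((Gs l).T m (∑ j, Us l i j • e j))) → 1 < c →
          ∃ (G : GChart S n) (k : Fin n → ℕ) (o : Fin n → Fin (S.N m) → ℕ) (u : Fin n → ℝ), (k, o) ∈ 𝒟 ∧ TC x G k ∧
            MonoIn m s G o ∧
            (∀ i, 0 ≤ u i) ∧ u ≠ 0 ∧ ∀ i, α i * disc k u ≤ c * ow o u i) ∧
      -- (LT) LIFT 2: the final lift with the tropical cut-off
      (∀ (b q : Fin (S.N m) → ℝ) (η θ : ℝ), (∀ i, 0 < b i) → (∀ i, 0 ≤ q i) → (∃ i, 0 < q i) →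
        0 < η → η < 1 → 0 < θ →
        (∀ i, 0 < q i → (1 - η) * (m * ∑ i', b i') + η * (m / q i) < mm) →
        (∑ i, b i * q i = 1) →
        (∃ (G : GChart S n) (k : Fin n → ℕ) (o : Fin n → Fin (S.N m) → ℕ) (u : Fin n → ℝ), (k, o) ∈ 𝒟 ∧ TC x G k ∧
            MonoIn m s G o ∧
            (∀ i, 0 ≤ u i) ∧ u ≠ 0 ∧ ∀ i, ow o u i = disc k u * q i) →
        (∀ (G : GChart S n) (k : Fin n → ℕ) (o : Fin n → Fin (S.N m) → ℕ) (u : Fin n → ℝ), (k, o) ∈ 𝒟 → TC x G k →
            MonoIn m s G o →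
            (∀ i, 0 ≤ u i) → u ≠ 0 →
            (∃ μ : ℝ, 0 < μ ∧ ∀ i, |ow o u i - μ * q i| ≤ θ * μ) →
            (∃ i, 0 < q i ∧ (1 - η) * ∑ i', b i' * ow o u i' + η * (ow o u i / q i) < disc k u) ∨
            ((∀ i, ow o u i = disc k u * q i) ∧ IsPt G (wsupp u))) →
        Gen)

end Claimed.Agent.R242

/-! equation lemmas of this file, cited once here (rule 6) -/
namespace Claimed.Agent.R242

theorem r242_eqcite_Core_Iface : True := by
  have := @Claimed.Agent.R242.GChart.resRank.eq_1.{0}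
  have := @Claimed.Agent.R242.ow.eq_1
  have := @Claimed.Agent.R242.GChart.lin.eq_1.{0}
  have := @Claimed.Agent.R242.MonoIn.eq_1.{0}
  have := @Claimed.Agent.R242.disc.eq_1
  have := @Claimed.Agent.R242.SecRing.IsBasis.eq_1.{0}
  have := @Claimed.Agent.R242.pureExp.eq_1
  have := @Claimed.Agent.R242.objF.eq_1.{0}
  have := @Claimed.Agent.R242.toExp.eq_1
  have := @Claimed.Agent.R242.SecRing.N.eq_1.{0}
  have := @Claimed.Agent.R242.pertW.eq_1
  have := @Claimed.Agent.R242.wsupp.eq_1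
  trivial

end Claimed.Agent.R242
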