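/-
R242 / Core / Basic : first consequences of the contract `Iface` (no geometry).   Architect: helper100.
PROVED (helper87): the whole file, from the statements of Cvx/Init, Cvx/WOrd, Cvx/Basis (`isIni_unit_mul_monomial` now stands before `MonoIn.wOrd_eq`).

Notation: a TEST at `z` is `(G,k,u)` with `I.IsTest z G k u`; its objective with a basis `s` of `R_m` is `I.obj m t G k u s`;
`I.fval m t z` is the infimum `f_{m,t}(z)` of the paper (4.1).
`IniBasis G w₁ w₂ j s g` : `s` is a basis of `R_j` whose Taylor series in the chart `G` have pairwise distinct initial exponents `g i`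
for the monomial order `monoLT w₁ w₂`.
-/
import Mathlib
import Claimed.Agent.R242.Core.Iface
import Claimed.Agent.R242.Cvx.Basis

set_option autoImplicit false

namespace Claimed.Agent.R242

open Filter Topology Finset

variable {K : Type*} [Field K] [Algebra ℂ K]

section Disc

variable {n : ℕ}

theorem disc_pos (k : Fin n → ℕ) {u : Fin n → ℝ} (hu : ∀ i, 0 ≤ u i) (hu0 : u ≠ 0) : 0 < disc k u := by
  unfold disc
  obtain ⟨i, hi⟩ : ∃ i, u i ≠ 0 := by
    by_contra h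
    push Not at h
    exact hu0 (funext h)
  have hk : ∀ i : Fin n, (0 : ℝ) < 1 + (k i : ℝ) := fun i => by positivity
  refine Finset.sum_pos' (fun j _ => mul_nonneg (hu j) (hk j).le) ⟨i, Finset.mem_univ i, ?_⟩
  exact mul_pos (lt_of_le_of_ne (hu i) hi.symm) (hk i)

theorem disc_nonneg (k : Fin n → ℕ) {u : Fin n → ℝ} (hu : ∀ i, 0 ≤ u i) : 0 ≤ disc k u := by
  unfold disc
  exact Finset.sum_nonneg fun j _ => mul_nonneg (hu j) (by positivity)

theorem disc_smul (k : Fin n → ℕ) (c : ℝ) (u : Fin n → ℝ) : disc k (fun i => c * u i) = c * disc k u := by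
  unfold disc
  rw [Finset.mul_sum]
  exact Finset.sum_congr rfl fun i _ => mul_assoc _ _ _

theorem disc_add (k : Fin n → ℕ) (u v : Fin n → ℝ) : disc k (fun i => u i + v i) = disc k u + disc k v := by
  unfold disc
  rw [← Finset.sum_add_distrib]
  exact Finset.sum_congr rfl fun i _ => add_mul _ _ _

theorem disc_zero_one : disc (0 : Fin n → ℕ) (fun _ => (1 : ℝ)) = n := by
  unfold disc
  simp

theorem disc_congr {k k' : Fin n → ℕ} {u : Fin n → ℝ} (h : ∀ i, u i ≠ 0 → k' i = k i) : disc k' u = disc k u := by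
  unfold disc
  refine Finset.sum_congr rfl fun i _ => ?_
  by_cases hi : u i = 0
  · rw [hi, zero_mul, zero_mul]
  · rw [h i hi]

theorem ow_smul {N : ℕ} (o : Fin n → Fin N → ℕ) (c : ℝ) (u : Fin n → ℝ) (i : Fin N) :
    ow o (fun j => c * u j) i = c * ow o u i := by
  unfold ow
  rw [Finset.mul_sum]
  exact Finset.sum_congr rfl fun i _ => mul_assoc _ _ _

theorem ow_add {N : ℕ} (o : Fin n → Fin N → ℕ) (u v : Fin n → ℝ) (i : Fin N) :
    ow o (fun j => u j + v j) i = ow o u i + ow o v i := by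
  unfold ow
  rw [← Finset.sum_add_distrib]
  exact Finset.sum_congr rfl fun i _ => add_mul _ _ _

theorem ow_nonneg {N : ℕ} (o : Fin n → Fin N → ℕ) {u : Fin n → ℝ} (hu : ∀ i, 0 ≤ u i) (i : Fin N) : 0 ≤ ow o u i := by
  unfold ow
  exact Finset.sum_nonneg fun j _ => mul_nonneg (hu j) (Nat.cast_nonneg _)

theorem wsupp_smul {c : ℝ} (hc : c ≠ 0) (u : Fin n → ℝ) : wsupp (fun i => c * u i) = wsupp u := by
  unfold wsupp
  refine Finset.filter_congr fun i _ => ?_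
  simp [hc]

/-- discrepancy of the perturbed weights: `A(v_ε) = A(v) + d ε + e ε^2` (paper (5.11)); `e` = number of fibre coordinates -/
theorem disc_pertW {d : ℕ} (k' : Fin n → ℕ) (u : Fin n → ℝ) (tn : Fin d → Fin n) (htn : Function.Injective tn)
    (hu : ∀ a, u (tn a) = 0) (hk' : ∀ i, u i = 0 → k' i = 0) (ε : ℝ) :
    disc k' (pertW u tn ε) = disc k' u + d * ε
      + ((Finset.univ.filter fun i : Fin n => u i = 0 ∧ i ∉ Set.range tn).card : ℝ) * ε ^ 2 := by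
  classical
  have h1 : ∀ i : Fin n, pertW u tn ε i * (1 + (k' i : ℝ)) = u i * (1 + (k' i : ℝ))
      + (if i ∈ Set.range tn then ε else 0) + (if u i = 0 ∧ i ∉ Set.range tn then ε ^ 2 else 0) := by
    intro i
    unfold pertW
    by_cases hr : i ∈ Set.range tn
    · obtain ⟨a, rfl⟩ := hr
      have hmem : tn a ∈ Set.range tn := ⟨a, rfl⟩
      simp [hu a, hk' _ (hu a)]
    · by_cases h0 : u i = 0
      · simp [hr, h0, hk' i h0]
      · simp [hr, h0]
  unfold disc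
  rw [Finset.sum_congr rfl fun i _ => h1 i, Finset.sum_add_distrib, Finset.sum_add_distrib]
  congr 1
  · congr 1
    rw [← Finset.sum_filter, Finset.sum_const, nsmul_eq_mul]
    congr 2
    have : Finset.univ.filter (fun i : Fin n => i ∈ Set.range tn) = Finset.univ.image tn := by
      ext i
      simp
    rw [this, Finset.card_image_of_injective _ htn, Finset.card_univ, Fintype.card_fin]
  · rw [← Finset.sum_filter, Finset.sum_const, nsmul_eq_mul]

theorem pertW_nonneg {d : ℕ} {u : Fin n → ℝ} (hu : ∀ i, 0 ≤ u i) (tn : Fin d → Fin n) {ε : ℝ} (hε : 0 ≤ ε) (i : Fin n) :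
    0 ≤ pertW u tn ε i := by
  unfold pertW
  have h1 := hu i
  split_ifs <;> positivity

theorem pertW_ne_zero {d : ℕ} {u : Fin n → ℝ} (hu : ∀ i, 0 ≤ u i) (hu0 : u ≠ 0) (tn : Fin d → Fin n) {ε : ℝ} (hε : 0 ≤ ε) :
    pertW u tn ε ≠ 0 := by
  obtain ⟨i, hi⟩ : ∃ i, u i ≠ 0 := by
    by_contra h
    push Not at h
    exact hu0 (funext h)
  intro h
  have h1 : pertW u tn ε i = 0 := congrFun h i
  have h2 : 0 < u i := lt_of_le_of_ne (hu i) hi.symm
  unfold pertW at h1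
  have h3 : 0 ≤ ε * (if i ∈ Set.range tn then (1 : ℝ) else 0) := by
    split_ifs <;> positivity
  have h4 : (0 : ℝ) ≤ (if u i = 0 ∧ i ∉ Set.range tn then ε ^ 2 else 0) := by
    split_ifs <;> positivity
  linarith

end Disc

section Chart

variable {S : SecRing K} {n : ℕ} (G : GChart S n)

theorem GChart.lin_injective (j : ℕ) : Function.Injective (G.lin j) := by
  rw [injective_iff_map_eq_zero]
  intro a ha
  exact Subtype.ext (G.inj j a a.2 ha)

theorem GChart.T_ne_zero {j : ℕ} {a : K} (ha : a ∈ S.R j) (h0 : a ≠ 0) : G.T j a ≠ 0 := fun h => h0 (G.inj j a ha h)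

theorem GChart.T_sum {j : ℕ} {ι : Type*} (t : Finset ι) (c : ι → ℂ) (a : ι → K) (ha : ∀ i ∈ t, a i ∈ S.R j) :
    G.T j (∑ i ∈ t, c i • a i) = ∑ i ∈ t, c i • G.T j (a i) := by
  classical
  have h0 : G.T j 0 = 0 := by
    have := G.smul j 0 0 (S.R j).zero_mem
    rwa [zero_smul, zero_smul] at this
  induction t using Finset.induction_on with
  | empty => simpa using h0
  | insert i t hi ih =>
    have h1 : ∀ i' ∈ t, a i' ∈ S.R j := fun i' hi' => ha i' (Finset.mem_insert_of_mem hi')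
    have h2 : a i ∈ S.R j := ha i (Finset.mem_insert_self i t)
    rw [Finset.sum_insert hi, Finset.sum_insert hi,
      G.add j _ _ ((S.R j).smul_mem _ h2)
        ((S.R j).sum_mem fun i' hi' => (S.R j).smul_mem _ (h1 i' hi')),
      G.smul j _ _ h2, ih h1]

/-- a monomial valuation is a filtration function on `R_j` -/
theorem GChart.isFilt {u : Fin n → ℝ} (hu : ∀ i, 0 ≤ u i) (j : ℕ) :
    IsFilt ℂ (fun a : S.R j => wOrd u (G.T j a)) := by
  refine ⟨fun c v hc => ?_, fun v w hv hw hvw => ?_⟩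
  · show wOrd u (G.T j ((c • v : S.R j) : K)) = wOrd u (G.T j v)
    rw [Submodule.coe_smul, G.smul j c v v.2, wOrd_smul u hc]
  · show min (wOrd u (G.T j v)) (wOrd u (G.T j w)) ≤ wOrd u (G.T j ((v + w : S.R j) : K))
    have hne : ∀ a : S.R j, a ≠ 0 → G.T j a ≠ 0 := fun a ha =>
      G.T_ne_zero a.2 fun h => ha (Subtype.ext h)
    have h1 := hne _ hvw
    rw [Submodule.coe_add, G.add j v w v.2 w.2] at h1 ⊢
    exact wOrd_add hu h1 (hne v hv) (hne w hw)

/-- bases as functions and bundled bases -/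
theorem SecRing.isBasis_iff (S : SecRing K) (m : ℕ) (s : Fin (S.N m) → K) :
    S.IsBasis m s ↔ ∃ b : Module.Basis (Fin (S.N m)) ℂ (S.R m), ∀ i, ((b i : S.R m) : K) = s i := by
  have := S.fin m
  constructor
  · rintro ⟨h1, h2⟩
    have hli : LinearIndependent ℂ (fun i => (⟨s i, h1 i⟩ : S.R m)) :=
      LinearIndependent.of_comp (S.R m).subtype h2
    have hsp := hli.span_eq_top_of_card_eq_finrank' (by rw [Fintype.card_fin]; rfl)
    refine ⟨Module.Basis.mk hli hsp.ge, fun i => ?_⟩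
    rw [Module.Basis.mk_apply]
  · rintro ⟨b, hb⟩
    refine ⟨fun i => by rw [← hb i]; exact (b i).2, ?_⟩
    have h1 : s = (S.R m).subtype ∘ b := funext fun i => (hb i).symm
    rw [h1]
    exact b.linearIndependent.map' _ (Submodule.ker_subtype _)

theorem SecRing.exists_isBasis (S : SecRing K) (m : ℕ) : ∃ s, S.IsBasis m s := by
  have := S.fin m
  exact ⟨fun i => (Module.finBasis ℂ (S.R m) i : K),
    (S.isBasis_iff m _).2 ⟨Module.finBasis ℂ (S.R m), fun _ => rfl⟩⟩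

theorem SecRing.IsBasis.ne_zero {m : ℕ} {s : Fin (S.N m) → K} (h : S.IsBasis m s) (i : Fin (S.N m)) : s i ≠ 0 := by
  exact h.2.ne_zero i

/-- the set of initial exponents of `R_j` in the chart `G` -/
def GChart.ini (w₁ w₂ : Fin n → ℝ) (j : ℕ) : Set (Fin n →₀ ℕ) := iniSet (monoLT w₁ w₂) (G.lin j)

/-- a basis with pairwise distinct initial exponents -/
def IniBasis (w₁ w₂ : Fin n → ℝ) (j : ℕ) (s : Fin (S.N j) → K) (g : Fin (S.N j) → (Fin n →₀ ℕ)) : Prop :=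
  S.IsBasis j s ∧ Function.Injective g ∧
    ∀ i, IsIni (monoLT w₁ w₂) (G.T j (s i) : (Fin n →₀ ℕ) → ℂ) (g i)

variable {w₁ w₂ : Fin n → ℝ} (h₁ : ∀ i, 0 ≤ w₁ i) (h₂ : ∀ i, 0 ≤ w₂ i)

include h₁ h₂

theorem GChart.ini_finite (j : ℕ) : (G.ini w₁ w₂ j).Finite := by
  have := S.fin j
  have := monoLT_isWellOrder h₁ h₂
  exact iniSet_finite (monoLT w₁ w₂) (G.lin j)

theorem GChart.ini_ncard (j : ℕ) : (G.ini w₁ w₂ j).ncard = S.N j := by
  have := S.fin j
  have := monoLT_isWellOrder h₁ h₂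
  exact iniSet_ncard (monoLT w₁ w₂) (G.lin j) (G.lin_injective j)

theorem GChart.mem_ini {j : ℕ} {γ : Fin n →₀ ℕ} :
    γ ∈ G.ini w₁ w₂ j ↔ ∃ a ∈ S.R j, IsIni (monoLT w₁ w₂) (G.T j a : (Fin n →₀ ℕ) → ℂ) γ := by
  constructor
  · rintro ⟨v, hv⟩
    exact ⟨v, v.2, hv⟩
  · rintro ⟨a, ha, hv⟩
    exact ⟨⟨a, ha⟩, hv⟩

theorem GChart.ini_add {i j : ℕ} {γ δ : Fin n →₀ ℕ} (hγ : γ ∈ G.ini w₁ w₂ i) (hδ : δ ∈ G.ini w₁ w₂ j) :
    γ + δ ∈ G.ini w₁ w₂ (i + j) := by
  have := monoLT_isWellOrder h₁ h₂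
  obtain ⟨a, ha, hγ⟩ := (G.mem_ini h₁ h₂).1 hγ
  obtain ⟨b, hb, hδ⟩ := (G.mem_ini h₁ h₂).1 hδ
  refine (G.mem_ini h₁ h₂).2 ⟨a * b, S.mul_mem i j a b ha hb, ?_⟩
  rw [G.mul i j a b ha hb]
  exact isIni_mul (monoLT w₁ w₂) (monoLT_add w₁ w₂) hγ hδ

theorem GChart.exists_iniBasis (j : ℕ) : ∃ s g, IniBasis G w₁ w₂ j s g := by
  have := S.fin j
  have := monoLT_isWellOrder h₁ h₂
  obtain ⟨b, hb⟩ := exists_ini_basis (monoLT w₁ w₂) (G.lin j) (G.lin_injective j)
  have hfin : Finite (iniSet (monoLT w₁ w₂) (G.lin j)) := (G.ini_finite h₁ h₂ j).to_subtype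
  have hcard : Nat.card (iniSet (monoLT w₁ w₂) (G.lin j)) = S.N j := by
    rw [Nat.card_coe_set_eq]
    exact G.ini_ncard h₁ h₂ j
  let e : iniSet (monoLT w₁ w₂) (G.lin j) ≃ Fin (S.N j) := Finite.equivFinOfCardEq hcard
  refine ⟨fun i => ((b.reindex e) i : K), fun i => (e.symm i : Fin n →₀ ℕ),
    (S.isBasis_iff j _).2 ⟨b.reindex e, fun _ => rfl⟩,
    Subtype.val_injective.comp e.symm.injective, fun i => ?_⟩
  have h1 : (b.reindex e) i = b (e.symm i) := Module.Basis.reindex_apply b e i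
  show IsIni (monoLT w₁ w₂) (G.T j ((b.reindex e) i : K) : (Fin n →₀ ℕ) → ℂ) (e.symm i)
  rw [h1]
  exact hb (e.symm i)

theorem IniBasis.range_eq {j : ℕ} {s : Fin (S.N j) → K} {g : Fin (S.N j) → (Fin n →₀ ℕ)}
    (h : IniBasis G w₁ w₂ j s g) : Set.range g = G.ini w₁ w₂ j := by
  refine Set.eq_of_subset_of_ncard_le ?_ ?_ (G.ini_finite h₁ h₂ j)
  · rintro _ ⟨i, rfl⟩
    exact (G.mem_ini h₁ h₂).2 ⟨s i, h.1.1 i, h.2.2 i⟩
  · rw [G.ini_ncard h₁ h₂ j, ← Set.image_univ, Set.ncard_image_of_injective _ h.2.1,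
      Set.ncard_univ, Nat.card_eq_fintype_card, Fintype.card_fin]

theorem IniBasis.wOrd_eq {j : ℕ} {s : Fin (S.N j) → K} {g : Fin (S.N j) → (Fin n →₀ ℕ)}
    (h : IniBasis G w₁ w₂ j s g) (i : Fin (S.N j)) : wOrd w₁ (G.T j (s i)) = wdeg w₁ (g i) := by
  exact wOrd_eq_of_isIni h₁ (h.2.2 i)

/-- **a basis with distinct initials is adapted to the `w₁`-filtration, hence minimizes antitone sums** -/
theorem IniBasis.sum_le {j : ℕ} {s : Fin (S.N j) → K} {g : Fin (S.N j) → (Fin n →₀ ℕ)}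
    (h : IniBasis G w₁ w₂ j s g) {s' : Fin (S.N j) → K} (hs' : S.IsBasis j s') (φ : ℝ → ℝ) (hφ : Antitone φ) :
    ∑ i, φ (wOrd w₁ (G.T j (s i))) ≤ ∑ i, φ (wOrd w₁ (G.T j (s' i))) := by
  classical
  have := monoLT_isWellOrder h₁ h₂
  obtain ⟨b, hb⟩ := (S.isBasis_iff j s).1 h.1
  obtain ⟨b', hb'⟩ := (S.isBasis_iff j s').1 hs'
  have hini : ∀ i, IsIni (monoLT w₁ w₂) (G.lin j (b i)) (g i) := fun i => by
    show IsIni (monoLT w₁ w₂) (G.T j (b i : K) : (Fin n →₀ ℕ) → ℂ) (g i)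
    rw [hb i]
    exact h.2.2 i
  have hadapt : IsAdapted (fun a : S.R j => wOrd w₁ (G.T j a)) b := by
    intro c i hci
    have hne : (g '' {i' | c i' ≠ 0}).Nonempty := ⟨g i, i, hci, rfl⟩
    obtain ⟨_, ⟨i₀, hc₀, rfl⟩, hmin⟩ :=
      (IsWellFounded.wf (r := monoLT w₁ w₂)).has_min _ hne
    have h1 := ini_linear_combination (monoLT w₁ w₂) (G.lin j) b g h.2.1 hini c i₀ hc₀
      (fun i' hi' => hmin (g i') ⟨i', hi', rfl⟩)
    have h2 : wOrd w₁ (G.T j ((∑ i', c i' • b i' : S.R j) : K)) = wdeg w₁ (g i₀) :=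
      wOrd_eq_of_isIni h₁ h1
    have h3 : wOrd w₁ (G.T j (b i : K)) = wdeg w₁ (g i) := wOrd_eq_of_isIni h₁ (hini i)
    show wOrd w₁ (G.T j ((∑ i', c i' • b i' : S.R j) : K)) ≤ wOrd w₁ (G.T j (b i : K))
    rw [h2, h3]
    by_contra hlt
    exact hmin (g i) ⟨i, hci, rfl⟩ (Or.inl (not_le.1 hlt))
  have key := adapted_sum_le (G.isFilt h₁ j) b hadapt b' φ hφ
  simp only [hb, hb'] at key
  exact key

omit h₁ h₂

/-- unit times monomial has that monomial as initial exponent -/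
theorem isIni_unit_mul_monomial (h₁ : ∀ i, 0 ≤ w₁ i) (h₂ : ∀ i, 0 ≤ w₂ i) {V : MvPowerSeries (Fin n) ℂ}
    (hV : MvPowerSeries.coeff 0 V ≠ 0) (e : Fin n →₀ ℕ) :
    IsIni (monoLT w₁ w₂) ((V * MvPowerSeries.monomial e (1 : ℂ) : MvPowerSeries (Fin n) ℂ) : (Fin n →₀ ℕ) → ℂ) e := by
  classical
  have := monoLT_isWellOrder h₁ h₂
  have h1 := isIni_zero_of_constantCoeff h₁ h₂ hV
  have h2 : IsIni (monoLT w₁ w₂)
      ((MvPowerSeries.monomial e (1 : ℂ) : MvPowerSeries (Fin n) ℂ) : (Fin n →₀ ℕ) → ℂ) e := by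
    have hc : ∀ δ, (MvPowerSeries.monomial e (1 : ℂ) : MvPowerSeries (Fin n) ℂ) δ
        = if δ = e then 1 else 0 := fun δ => MvPowerSeries.coeff_monomial δ e 1
    refine ⟨by rw [hc, if_pos rfl]; exact one_ne_zero, fun δ hδ => ?_⟩
    rw [hc] at hδ
    have : δ = e := by
      by_contra hne
      rw [if_neg hne] at hδ
      exact hδ rfl
    rw [this]
    exact irrefl_of (monoLT w₁ w₂) e
  have h3 := isIni_mul (monoLT w₁ w₂) (monoLT_add w₁ w₂) h1 h2
  rwa [zero_add] at h3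

/-- in a cell the orders of the basis are linear in the weights -/
theorem MonoIn.wOrd_eq {m : ℕ} {s : Fin (S.N m) → K} {o : Fin n → Fin (S.N m) → ℕ} (h : MonoIn m s G o)
    {u : Fin n → ℝ} (hu : ∀ i, 0 ≤ u i) (i : Fin (S.N m)) : wOrd u (G.T m (s i)) = ow o u i := by
  obtain ⟨V, hV, hT⟩ := h i
  have h0 : ∀ i : Fin n, (0 : ℝ) ≤ (0 : Fin n → ℝ) i := fun _ => le_rfl
  rw [hT, wOrd_eq_of_isIni hu (isIni_unit_mul_monomial hu h0 hV _)]
  rfl

end Chart

section Obj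

variable {Pt : Type*} [TopologicalSpace Pt] (I : Iface K Pt)

/-- a test at `z` -/
def Iface.IsTest (z : Pt) (G : GChart I.S I.n) (k : Fin I.n → ℕ) (u : Fin I.n → ℝ) : Prop :=
  I.TC z G k ∧ (∀ i, 0 ≤ u i) ∧ u ≠ 0

/-- objective of a test and a basis -/
noncomputable def Iface.obj (m : ℕ) (t : ℝ) (G : GChart I.S I.n) (k : Fin I.n → ℕ) (u : Fin I.n → ℝ)
    (s : Fin (I.S.N m) → K) : ℝ :=
  objF I.S m t (disc k u) (fun a => wOrd u (G.T m a)) s

/-- the set of values of the objective at `z` -/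
def Iface.objSet (m : ℕ) (t : ℝ) (z : Pt) : Set ℝ :=
  {F | ∃ G k u s, I.IsTest z G k u ∧ I.S.IsBasis m s ∧ F = I.obj m t G k u s}

/-- `f_{m,t}(z)` -/
noncomputable def Iface.fval (m : ℕ) (t : ℝ) (z : Pt) : ℝ := sInf (I.objSet m t z)

theorem Iface.IsTest.smul {z : Pt} {G : GChart I.S I.n} {k : Fin I.n → ℕ} {u : Fin I.n → ℝ} (h : I.IsTest z G k u)
    {c : ℝ} (hc : 0 < c) : I.IsTest z G k (fun i => c * u i) := by
  refine ⟨h.1, fun i => mul_nonneg hc.le (h.2.1 i), fun h0 => h.2.2 (funext fun i => ?_)⟩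
  have h1 : c * u i = 0 := congrFun h0 i
  exact (mul_eq_zero.1 h1).resolve_left hc.ne'

theorem Iface.obj_nonneg (m : ℕ) (t : ℝ) (G : GChart I.S I.n) (k : Fin I.n → ℕ) (u : Fin I.n → ℝ)
    (s : Fin (I.S.N m) → K) : 0 ≤ I.obj m t G k u s := by
  unfold Iface.obj objF
  exact div_nonneg (Finset.sum_nonneg fun i _ => (Real.exp_pos _).le) (Nat.cast_nonneg _)

theorem Iface.objSet_nonempty (m : ℕ) (t : ℝ) (z : Pt) : (I.objSet m t z).Nonempty := by
  obtain ⟨s, hs⟩ := I.S.exists_isBasis m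
  refine ⟨_, I.chart z, 0, fun _ => 1, s, ⟨I.chart_tc z, fun _ => zero_le_one, fun h0 => ?_⟩, hs, rfl⟩
  have h1 : (1 : ℝ) = 0 := congrFun h0 ⟨0, I.hn⟩
  exact one_ne_zero h1

theorem Iface.fval_le {m : ℕ} {t : ℝ} {z : Pt} {G : GChart I.S I.n} {k : Fin I.n → ℕ} {u : Fin I.n → ℝ}
    {s : Fin (I.S.N m) → K} (h : I.IsTest z G k u) (hs : I.S.IsBasis m s) : I.fval m t z ≤ I.obj m t G k u s := by
  refine csInf_le ⟨0, ?_⟩ ⟨G, k, u, s, h, hs, rfl⟩
  rintro _ ⟨G', k', u', s', -, -, rfl⟩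
  exact I.obj_nonneg m t G' k' u' s'

theorem Iface.fval_nonneg (m : ℕ) (t : ℝ) (z : Pt) : 0 ≤ I.fval m t z := by
  refine Real.sInf_nonneg ?_
  rintro _ ⟨G', k', u', s', -, -, rfl⟩
  exact I.obj_nonneg m t G' k' u' s'

theorem Iface.exists_obj_lt {m : ℕ} {t : ℝ} {z : Pt} {c : ℝ} (hc : I.fval m t z < c) :
    ∃ G k u s, I.IsTest z G k u ∧ I.S.IsBasis m s ∧ I.obj m t G k u s < c := by
  obtain ⟨_, ⟨G, k, u, s, h, hs, rfl⟩, hlt⟩ := exists_lt_of_csInf_lt (I.objSet_nonempty m t z) hc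
  exact ⟨G, k, u, s, h, hs, hlt⟩

/-- objective in a cell, in terms of `Phi` data: `obj = (1/N) ∑ exp (A/t - <u,o_i>/m)` -/
theorem Iface.obj_cell {m : ℕ} (t : ℝ) {G : GChart I.S I.n} (k : Fin I.n → ℕ) {u : Fin I.n → ℝ} (hu : ∀ i, 0 ≤ u i)
    {s : Fin (I.S.N m) → K} {o : Fin I.n → Fin (I.S.N m) → ℕ} (h : MonoIn m s G o) :
    I.obj m t G k u s = (∑ i, Real.exp (disc k u / t - ow o u i / m)) / I.S.N m := by
  unfold Iface.obj objF
  congr 1
  exact Finset.sum_congr rfl fun i _ => by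
    beta_reduce
    rw [h.wOrd_eq G hu i]

/-- replacing the basis by one with distinct initials (for an order refining the valuation) does not increase the objective -/
theorem Iface.obj_iniBasis_le {m : ℕ} {t : ℝ} {G : GChart I.S I.n} (k : Fin I.n → ℕ) {u w₂ : Fin I.n → ℝ}
    (hu : ∀ i, 0 ≤ u i) (h₂ : ∀ i, 0 ≤ w₂ i) {s : Fin (I.S.N m) → K} {g : Fin (I.S.N m) → (Fin I.n →₀ ℕ)}
    (h : IniBasis G u w₂ m s g) {s' : Fin (I.S.N m) → K} (hs' : I.S.IsBasis m s') :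
    I.obj m t G k u s ≤ I.obj m t G k u s' := by
  unfold Iface.obj objF
  refine div_le_div_of_nonneg_right ?_ (Nat.cast_nonneg _)
  refine h.sum_le G hu h₂ hs' (fun x => Real.exp (disc k u / t - x / m)) fun x y hxy => ?_
  refine Real.exp_le_exp.2 ?_
  have : x / (m : ℝ) ≤ y / (m : ℝ) := div_le_div_of_nonneg_right hxy (Nat.cast_nonneg _)
  linarith

end Obj

end Claimed.Agent.R242

/-! equation lemmas of this file, cited once here (rule 6) -/
namespace Claimed.Agent.R242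

theorem r242_eqcite_Core_Basic : True := by
  have := @Claimed.Agent.R242.IniBasis.eq_1.{0}
  have := @Claimed.Agent.R242.Iface.obj.eq_1.{0,0}
  have := @Claimed.Agent.R242.GChart.ini.eq_1.{0}
  have := @Claimed.Agent.R242.Iface.IsTest.eq_1.{0,0}
  have := @Claimed.Agent.R242.Iface.objSet.eq_1.{0,0}
  have := @Claimed.Agent.R242.Iface.fval.eq_1.{0,0}
  trivial

end Claimed.Agent.R242
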