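/-
R242 / Core / S3 : Section 3 of the paper on the contract `Iface`:  initial exponents at the points of `Pt`, supply of jets,
multiplicity bound, ordinary-order gap.      Architect: helper100.

`I.H z j` = the set of initial exponents (total degree, then lex) of the sections of `jL` in the Taylor chart at `z`.
-/
import Mathlib
import Claimed.Agent.R242.Core.Basic
import Claimed.Agent.R242.Cvx.Lattice

set_option autoImplicit false

namespace Claimed.Agent.R242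

open Filter Topology Finset

variable {K : Type*} [Field K] [Algebra ℂ K]

section Chart

variable {S : SecRing K} {n : ℕ} (G : GChart S n)

/-- the set of initial exponents as a `Finset` -/
noncomputable def GChart.iniFin (w₁ w₂ : Fin n → ℝ) (j : ℕ) : Finset (Fin n →₀ ℕ) :=
  open Classical in if h : (G.ini w₁ w₂ j).Finite then h.toFinset else ∅

variable {w₁ w₂ : Fin n → ℝ}

theorem GChart.mem_iniFin (h₁ : ∀ i, 0 ≤ w₁ i) (h₂ : ∀ i, 0 ≤ w₂ i) {j : ℕ} {γ : Fin n →₀ ℕ} :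
    γ ∈ G.iniFin w₁ w₂ j ↔ γ ∈ G.ini w₁ w₂ j := by
  unfold GChart.iniFin
  rw [dif_pos (G.ini_finite h₁ h₂ j)]
  exact Set.Finite.mem_toFinset _

theorem GChart.iniFin_card (h₁ : ∀ i, 0 ≤ w₁ i) (h₂ : ∀ i, 0 ≤ w₂ i) (j : ℕ) :
    (G.iniFin w₁ w₂ j).card = S.N j := by
  rw [← G.ini_ncard h₁ h₂ j]
  unfold GChart.iniFin
  rw [dif_pos (G.ini_finite h₁ h₂ j)]
  exact (Set.ncard_eq_toFinset_card _ (G.ini_finite h₁ h₂ j)).symm

/-- sums over the initial exponents are sums over a basis with distinct initials -/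
theorem IniBasis.sum_eq (h₁ : ∀ i, 0 ≤ w₁ i) (h₂ : ∀ i, 0 ≤ w₂ i) {j : ℕ} {s : Fin (S.N j) → K}
    {g : Fin (S.N j) → (Fin n →₀ ℕ)} (h : IniBasis G w₁ w₂ j s g) (φ : (Fin n →₀ ℕ) → ℝ) :
    ∑ i, φ (g i) = ∑ γ ∈ G.iniFin w₁ w₂ j, φ γ := by
  classical
  have himg : G.iniFin w₁ w₂ j = Finset.univ.image g := by
    ext γ
    rw [G.mem_iniFin h₁ h₂, ← h.range_eq G h₁ h₂]
    simp
  rw [himg, Finset.sum_image (fun a _ b _ hab => h.2.1 hab)]

/-- powers: `T (j * q) (a ^ q) = (T j a) ^ q` -/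
theorem GChart.T_pow {j : ℕ} {a : K} (ha : a ∈ S.R j) (q : ℕ) (hq : 1 ≤ q) :
    a ^ q ∈ S.R (j * q) ∧ G.T (j * q) (a ^ q) = (G.T j a) ^ q := by
  induction q, hq using Nat.le_induction with
  | base => simpa using ha
  | succ q _ ih =>
    obtain ⟨ih1, ih2⟩ := ih
    rw [Nat.mul_succ, pow_succ, pow_succ]
    exact ⟨S.mul_mem _ _ _ _ ih1 ha, by rw [G.mul _ _ _ _ ih1 ha, ih2]⟩

/-- **supply of monomials**: if `σ₀, σ_a ∈ R_k` (`a : Fin d`) satisfy `T σ_a = T σ₀ * X (c a)`, `T σ₀` a unit, and `τ ∈ R_b` has a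
unit Taylor series, then for every `α : Fin d → ℕ` with `|α| ≤ q` there is a section in `R (k q + b)` whose series is
`unit * ∏ X (c a)^(α a)`. -/
theorem GChart.exists_monomial_section {d k b : ℕ} (c : Fin d → Fin n) {σ₀ τ : K} (hσ₀ : σ₀ ∈ S.R k)
    (hσ₀' : MvPowerSeries.coeff 0 (G.T k σ₀) ≠ 0)
    (hσ : ∀ a : Fin d, ∃ σ ∈ S.R k, G.T k σ = G.T k σ₀ * MvPowerSeries.X (c a))
    (hτ : τ ∈ S.R b) (hτ' : MvPowerSeries.coeff 0 (G.T b τ) ≠ 0) (q : ℕ) (α : Fin d → ℕ) (hα : ∑ a, α a ≤ q) :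
    ∃ r ∈ S.R (k * q + b), ∃ V : MvPowerSeries (Fin n) ℂ, MvPowerSeries.coeff 0 V ≠ 0 ∧
      G.T (k * q + b) r = V * MvPowerSeries.monomial (∑ a, Finsupp.single (c a) (α a)) (1 : ℂ) := by
  classical
  induction q generalizing α with
  | zero =>
    have hα0 : ∀ a, α a = 0 := by
      intro a
      have := Finset.single_le_sum (f := α) (fun i _ => Nat.zero_le _) (Finset.mem_univ a)
      omega
    refine ⟨τ, by simpa using hτ, G.T b τ, hτ', ?_⟩
    simp [hα0]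
  | succ q ih =>
    have hidx : k * (q + 1) + b = k + (k * q + b) := by ring
    rw [hidx]
    by_cases hle : ∑ a, α a ≤ q
    · obtain ⟨r, hr, V, hV, hT⟩ := ih α hle
      refine ⟨σ₀ * r, S.mul_mem _ _ _ _ hσ₀ hr, G.T k σ₀ * V, ?_, ?_⟩
      · rw [MvPowerSeries.coeff_zero_eq_constantCoeff_apply] at hσ₀' hV ⊢
        rw [map_mul]
        exact mul_ne_zero hσ₀' hV
      · rw [G.mul _ _ _ _ hσ₀ hr, hT, mul_assoc]
    · have hsum : ∑ a, α a = q + 1 := by omega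
      obtain ⟨a, ha⟩ : ∃ a, 0 < α a := by
        by_contra hcon
        push Not at hcon
        have : ∑ a, α a = 0 := Finset.sum_eq_zero (fun a _ => by have := hcon a; omega)
        omega
      obtain ⟨α', hα'⟩ : ∃ α' : Fin d → ℕ, ∀ x, α x = α' x + if x = a then 1 else 0 := by
        refine ⟨fun x => if x = a then α a - 1 else α x, fun x => ?_⟩
        by_cases hx : x = a
        · subst hx
          simp only [if_true]
          omega
        · simp [hx]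
      have hsum' : ∑ x, α' x ≤ q := by
        have : ∑ x, α x = ∑ x, α' x + 1 := by
          simp only [hα', Finset.sum_add_distrib]
          simp
        omega
      obtain ⟨r, hr, V, hV, hT⟩ := ih α' hsum'
      obtain ⟨σ, hσm, hσT⟩ := hσ a
      refine ⟨σ * r, S.mul_mem _ _ _ _ hσm hr, G.T k σ₀ * V, ?_, ?_⟩
      · rw [MvPowerSeries.coeff_zero_eq_constantCoeff_apply] at hσ₀' hV ⊢
        rw [map_mul]
        exact mul_ne_zero hσ₀' hV
      · have hexp : ∑ x, Finsupp.single (c x) (α x)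
            = Finsupp.single (c a) 1 + ∑ x, Finsupp.single (c x) (α' x) := by
          simp only [hα', Finsupp.single_add, Finset.sum_add_distrib]
          rw [add_comm]
          congr 1
          rw [Finset.sum_eq_single a]
          · simp
          · intro x _ hx
            simp [hx]
          · intro hx
            exact absurd (Finset.mem_univ a) hx
        rw [G.mul _ _ _ _ hσm hr, hT, hσT, hexp, MvPowerSeries.X,
          ← one_mul (1 : ℂ), ← MvPowerSeries.monomial_mul_monomial, one_mul]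
        ring

end Chart

section S3

variable {Pt : Type*} [TopologicalSpace Pt] (I : Iface K Pt)

/-- initial exponents (total degree, then lex) at the point `z`, as functions -/
noncomputable def Iface.H (z : Pt) (j : ℕ) : Finset (Fin I.n → ℕ) :=
  ((I.chart z).iniFin (fun _ => 1) 0 j).image fun γ : Fin I.n →₀ ℕ => (γ : Fin I.n → ℕ)

theorem Iface.mem_H {z : Pt} {j : ℕ} {α : Fin I.n → ℕ} :
    α ∈ I.H z j ↔ ∃ a ∈ I.S.R j,
      IsIni (monoLT (fun _ => 1) 0) ((I.chart z).T j a : (Fin I.n →₀ ℕ) → ℂ) (toExp α) := by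
  have h₁ : ∀ i : Fin I.n, (0 : ℝ) ≤ (fun _ => 1 : Fin I.n → ℝ) i := fun _ => zero_le_one
  have h₂ : ∀ i : Fin I.n, (0 : ℝ) ≤ (0 : Fin I.n → ℝ) i := fun _ => le_rfl
  unfold Iface.H
  rw [Finset.mem_image]
  constructor
  · rintro ⟨γ, hγ, rfl⟩
    rw [(I.chart z).mem_iniFin h₁ h₂, (I.chart z).mem_ini h₁ h₂] at hγ
    have : toExp (γ : Fin I.n → ℕ) = γ := Finsupp.equivFunOnFinite.symm_apply_apply γ
    rw [this]
    exact hγ
  · intro h
    refine ⟨toExp α, ?_, Finsupp.equivFunOnFinite.apply_symm_apply α⟩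
    rw [(I.chart z).mem_iniFin h₁ h₂, (I.chart z).mem_ini h₁ h₂]
    exact h

theorem Iface.H_card (z : Pt) (j : ℕ) : (I.H z j).card = I.S.N j := by
  unfold Iface.H
  rw [Finset.card_image_of_injective _ DFunLike.coe_injective]
  exact (I.chart z).iniFin_card (fun _ => zero_le_one) (fun _ => le_rfl) j

theorem Iface.H_add (z : Pt) (i j : ℕ) : ∀ a ∈ I.H z i, ∀ b ∈ I.H z j, a + b ∈ I.H z (i + j) := by
  have h₁ : ∀ i : Fin I.n, (0 : ℝ) ≤ (fun _ => 1 : Fin I.n → ℝ) i := fun _ => zero_le_one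
  have h₂ : ∀ i : Fin I.n, (0 : ℝ) ≤ (0 : Fin I.n → ℝ) i := fun _ => le_rfl
  intro a ha b hb
  unfold Iface.H at ha hb ⊢
  obtain ⟨γ, hγ, rfl⟩ := Finset.mem_image.1 ha
  obtain ⟨δ, hδ, rfl⟩ := Finset.mem_image.1 hb
  rw [(I.chart z).mem_iniFin h₁ h₂] at hγ hδ
  refine Finset.mem_image.2 ⟨γ + δ, ?_, Finsupp.coe_add γ δ⟩
  rw [(I.chart z).mem_iniFin h₁ h₂]
  exact (I.chart z).ini_add h₁ h₂ hγ hδ

/-- supply of jets, uniformly in `z` -/
theorem Iface.H_jets (z : Pt) (q j : ℕ) (hj : I.k₀ * q + I.b₀ ≤ j) (α : Fin I.n → ℕ) (hα : ∑ i, α i ≤ q) :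
    α ∈ I.H z j := by
  obtain ⟨σ₀, hσ₀, hσ₀', hσ⟩ := I.jets z
  obtain ⟨τ, hτ, hτ'⟩ := I.bpf z (j - I.k₀ * q) (by omega)
  obtain ⟨r, hr, V, hV, hT⟩ := (I.chart z).exists_monomial_section (d := I.n) id hσ₀ hσ₀' hσ hτ hτ' q α hα
  have hj' : I.k₀ * q + (j - I.k₀ * q) = j := by omega
  rw [hj'] at hr hT
  have hexp : ∑ a, Finsupp.single (id a) (α a) = toExp α := by
    ext i
    rw [Finsupp.finsetSum_apply]
    simp only [id, Finsupp.single_apply]
    rw [Finset.sum_ite_eq' Finset.univ i]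
    simp [toExp]
  rw [I.mem_H]
  refine ⟨r, hr, ?_⟩
  rw [hT, hexp]
  exact isIni_unit_mul_monomial (fun _ => zero_le_one) (fun _ => le_rfl) hV _

theorem Iface.H_zero (z : Pt) (b : ℕ) (hb : I.b₀ ≤ b) : (0 : Fin I.n → ℕ) ∈ I.H z b := by
  have := I.H_jets z 0 b (by simpa using hb) 0 (by simp)
  exact this

/-- the multiplicity of a section is the total degree of its initial exponent, which lies in `H` -/
theorem Iface.exists_mem_H_of_ne_zero (z : Pt) {j : ℕ} {s : K} (hs : s ∈ I.S.R j) (h0 : s ≠ 0) :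
    ∃ γ ∈ I.H z j, wOrd (fun _ => 1) ((I.chart z).T j s) = ((∑ i, γ i : ℕ) : ℝ) := by
  have h₁ : ∀ i : Fin I.n, (0 : ℝ) ≤ (fun _ => 1 : Fin I.n → ℝ) i := fun _ => zero_le_one
  have h₂ : ∀ i : Fin I.n, (0 : ℝ) ≤ (0 : Fin I.n → ℝ) i := fun _ => le_rfl
  have := monoLT_isWellOrder h₁ h₂
  obtain ⟨γ, hγ⟩ := isIni_exists (monoLT (fun _ => 1 : Fin I.n → ℝ) 0)
    (f := ((I.chart z).T j s : (Fin I.n →₀ ℕ) → ℂ)) ((I.chart z).T_ne_zero hs h0)
  have hexp : toExp (γ : Fin I.n → ℕ) = γ := Finsupp.equivFunOnFinite.symm_apply_apply γ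
  refine ⟨γ, I.mem_H.2 ⟨s, hs, by rw [hexp]; exact hγ⟩, ?_⟩
  rw [wOrd_eq_of_isIni h₁ hγ]
  unfold wdeg
  push_cast
  simp

theorem Iface.N_pos : ∀ᶠ j : ℕ in atTop, 0 < I.S.N j := by
  obtain ⟨M, hM⟩ := exists_nat_gt I.Clow
  filter_upwards [eventually_ge_atTop (max I.j₁ M)] with j hj
  by_contra h0
  have hN : I.S.N j = 0 := by omega
  have h1 := I.card_low j ((le_max_left _ _).trans hj)
  have hn0 : (1 / (I.n : ℝ)) ≠ 0 := by
    have : (0 : ℝ) < I.n := by exact_mod_cast I.hn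
    positivity
  rw [hN, Nat.cast_zero, mul_zero, Real.zero_rpow hn0] at h1
  have h2 : (M : ℝ) ≤ j := by exact_mod_cast (le_max_right _ _).trans hj
  linarith

/-- **multiplicity bound (3.1)**, uniform in the point -/
theorem Iface.mult_bound : ∃ Cm : ℝ, 0 < Cm ∧ ∀ (z : Pt) (j : ℕ), 1 ≤ j → ∀ s ∈ I.S.R j, s ≠ 0 →
    wOrd (fun _ => 1) ((I.chart z).T j s) ≤ Cm * j := by
  obtain ⟨Cm, hCm, h⟩ := lat_mult_bound I.n I.hn I.CN I.k₀ I.b₀ I.hk₀
  refine ⟨Cm, hCm, fun z j hj s hs h0 => ?_⟩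
  obtain ⟨γ, hγ, he⟩ := I.exists_mem_H_of_ne_zero z hs h0
  rw [he]
  refine h (I.H z) (I.H_add z) (fun j hj => ?_) (fun q j hj α hα => I.H_jets z q j hj α hα) j hj γ hγ
  rw [I.H_card]
  exact I.card_up j hj

/-- a good configuration of initial exponents at `x` gives generation (LIFT 1 + `lex_weight`) -/
theorem Iface.gen_of_config (h D : ℕ) (hh : 1 ≤ h) (h1 : I.n * h < D) (h2 : D < (I.n + 1) * h)
    (hc : ∀ k : Fin I.n, ∃ β ∈ I.H I.x D, ∑ i, β i = I.n * h ∧ ∀ i, i ≠ k → β i < h) : I.Gen := by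
  obtain ⟨w, hw⟩ := lex_weight (n := I.n) (I.n * h)
  refine I.lift32 h D hh h1 h2 w fun k => ?_
  obtain ⟨β, hβ, hsum, hlt⟩ := hc k
  obtain ⟨r, hr, hini⟩ := I.mem_H.1 hβ
  have hβi : ∀ i, toExp β i = β i := fun i => rfl
  have hd1 : ∀ γ : Fin I.n →₀ ℕ, wdeg (fun _ => 1 : Fin I.n → ℝ) γ = ((∑ i, γ i : ℕ) : ℝ) := by
    intro γ
    unfold wdeg
    push_cast
    simp
  have hd0 : ∀ γ : Fin I.n →₀ ℕ, wdeg (0 : Fin I.n → ℝ) γ = 0 := by
    intro γ
    unfold wdeg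
    simp
  have hsum' : ∑ i, toExp β i = I.n * h := hsum
  refine ⟨r, hr, toExp β, hini.1, hsum', hlt, fun γ hγ => ?_, fun γ hγ hγs hne => ?_⟩
  · have h3 := hini.2 γ hγ
    by_contra hcon
    apply h3
    left
    rw [hd1, hd1, hsum']
    exact_mod_cast not_le.1 hcon
  · have h3 := hini.2 γ hγ
    refine hw (toExp β) γ hsum' hγs ?_
    rcases lt_trichotomy (toLex (toExp β : Fin I.n → ℕ)) (toLex (γ : Fin I.n → ℕ)) with h4 | h4 | h4
    · exact h4
    · exact absurd (DFunLike.coe_injective (toLex.injective h4)).symm hne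
    · exfalso
      apply h3
      right
      refine ⟨by rw [hd1, hd1, hsum', hγs], Or.inr ⟨by rw [hd0, hd0], h4⟩⟩

/-- **Proposition 3.2** -/
theorem Iface.gap (hG : ¬ I.Gen) : ∃ ε : ℝ, 0 < ε ∧ ∀ᶠ j : ℕ in atTop,
    (I.n : ℝ) / (I.n + 1) + ε ≤ (∑ γ ∈ I.H I.x j, ∑ i, (γ i : ℝ)) / (j * I.S.N j) := by
  obtain ⟨ε, hε, h⟩ := lattice_alternative I.n I.hn (I.H I.x) (I.H_add I.x) I.Clow I.j₁
    (fun j hj => by rw [I.H_card]; exact I.card_low j hj) I.b₀ (I.H_zero I.x)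
    (fun ⟨h, D, hh, h1, h2, hc⟩ => hG (I.gen_of_config h D hh h1 h2 hc))
  refine ⟨ε, hε, h.mono fun j hj => ?_⟩
  rw [I.H_card] at hj
  exact hj

end S3

end Claimed.Agent.R242
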