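/-
R242 / Core / S4a : Lemma 4.2 of the paper (uniform sublevel bounds) on the contract `Iface`.      Architect: helper100.

All lower bounds are uniform in the point `z : Pt` (needed for the semicontinuity argument of S4b).
-/
import Mathlib
import Claimed.Agent.R242.Core.S3
import Claimed.Agent.R242.Cvx.Limit

set_option autoImplicit false

namespace Claimed.Agent.R242

open Filter Topology Finset

variable {K : Type*} [Field K] [Algebra ℂ K] {Pt : Type*} [TopologicalSpace Pt] (I : Iface K Pt)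

/-- the constants of Lemma 4.2 -/
structure Iface.Bounds where
  t₀ : ℝ
  δ : ℝ
  κ : ℝ
  aS : ℝ
  aL : ℝ
  Cm : ℝ
  m₀ : ℕ
  ht₀ : 0 < t₀
  ht₀' : t₀ < I.n + 1
  hδ : 0 < δ
  hδ' : δ < 1
  hκ : 0 < κ
  haS : 0 < aS
  haSL : aS ≤ aL
  hCm : 0 < Cm
  hm₀ : 1 ≤ m₀
  N_pos : ∀ m, m₀ ≤ m → 0 < I.S.N m
  /-- (3.1) -/
  mult : ∀ (z : Pt) (j : ℕ), 1 ≤ j → ∀ s ∈ I.S.R j, s ≠ 0 → wOrd (fun _ => 1) ((I.chart z).T j s) ≤ Cm * j
  /-- (4.3), upper bound -/
  upper : ∀ m, m₀ ≤ m → ∀ t : ℝ, t₀ ≤ t → t ≤ I.n + 1 → I.fval m t I.x ≤ 1 - δ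
  /-- (4.6) -/
  coer : ∀ m, m₀ ≤ m → ∀ t : ℝ, 0 < t → t ≤ I.n + 1 → ∀ z G k u s, I.IsTest z G k u → I.S.IsBasis m s →
    κ * Real.exp (disc k u / (2 * (I.n + 1))) ≤ I.obj m t G k u s
  /-- `F ≥ exp (- C a)` -/
  small : ∀ m, m₀ ≤ m → ∀ t : ℝ, 0 < t → ∀ z G k u s, I.IsTest z G k u → I.S.IsBasis m s →
    Real.exp (-(Cm * disc k u)) ≤ I.obj m t G k u s
  /-- (4.4) -/
  disc_bd : ∀ m, m₀ ≤ m → ∀ t : ℝ, 0 < t → t ≤ I.n + 1 → ∀ z G k u s, I.IsTest z G k u → I.S.IsBasis m s →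
    I.obj m t G k u s ≤ 1 - δ / 2 → aS ≤ disc k u ∧ disc k u ≤ aL

/-- orders of sections for a test: `0 ≤ v(s) ≤ Cm j A(v)` -/
theorem Iface.val_le_mult {Cm : ℝ}
    (hmult : ∀ (z : Pt) (j : ℕ), 1 ≤ j → ∀ s ∈ I.S.R j, s ≠ 0 → wOrd (fun _ => 1) ((I.chart z).T j s) ≤ Cm * j)
    {z : Pt} {G : GChart I.S I.n} {k : Fin I.n → ℕ} {u : Fin I.n → ℝ} (h : I.IsTest z G k u) {j : ℕ} (hj : 1 ≤ j)
    {s : K} (hs : s ∈ I.S.R j) (h0 : s ≠ 0) : wOrd u (G.T j s) ≤ disc k u * (Cm * j) := by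
  have h1 := I.val_le z G k u h.1 h.2.1 j s hs h0
  exact h1.trans (mul_le_mul_of_nonneg_left (hmult z j hj s hs h0) (disc_nonneg k h.2.1))

/-- the ordinary order at `z` as a test: weights `lam`, discrepancy `lam * n` -/
theorem Iface.isTest_ord (z : Pt) {lam : ℝ} (hlam : 0 < lam) : I.IsTest z (I.chart z) 0 (fun _ => lam) :=
  ⟨I.chart_tc z, fun _ => hlam.le, fun h => hlam.ne' (congrFun h ⟨0, I.hn⟩)⟩

/-- objective of `lam * ord_x` with a basis with distinct ordinary initials -/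
theorem Iface.obj_ord (z : Pt) (m : ℕ) (t lam : ℝ) (hlam : 0 < lam) {s : Fin (I.S.N m) → K}
    {g : Fin (I.S.N m) → (Fin I.n →₀ ℕ)} (h : IniBasis (I.chart z) (fun _ => 1) 0 m s g) :
    I.obj m t (I.chart z) 0 (fun _ => lam) s
      = (∑ i, Real.exp (lam * ((I.n : ℝ) / t - (∑ a, (g i a : ℝ)) / m))) / I.S.N m := by
  unfold Iface.obj objF
  congr 1
  refine Finset.sum_congr rfl fun i _ => ?_
  congr 1
  have h1 : disc (0 : Fin I.n → ℕ) (fun _ => lam) = lam * I.n := by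
    simp [disc, mul_comm]
  have h2 : wOrd (fun _ : Fin I.n => lam) ((I.chart z).T m (s i))
      = lam * wOrd (fun _ => 1) ((I.chart z).T m (s i)) := by
    have := wOrd_scale (w := fun _ : Fin I.n => (1 : ℝ)) (fun _ => zero_le_one) hlam.le
      ((I.chart z).T m (s i))
    simpa using this
  have h3 : wOrd (fun _ => 1) ((I.chart z).T m (s i)) = ∑ a, (g i a : ℝ) := by
    rw [IniBasis.wOrd_eq (I.chart z) (fun _ => zero_le_one) (fun _ => le_rfl) h i]
    simp [wdeg]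
  show disc (0 : Fin I.n → ℕ) (fun _ => lam) / t
      - wOrd (fun _ : Fin I.n => lam) ((I.chart z).T m (s i)) / m = _
  rw [h1, h2, h3]
  ring

/-- first paragraph of the proof of Lemma 4.2 -/
theorem Iface.fval_upper (hG : ¬ I.Gen) : ∃ (t₀ δ : ℝ) (m₀ : ℕ), 0 < t₀ ∧ t₀ < I.n + 1 ∧ 0 < δ ∧ δ < 1 ∧
    ∀ m, m₀ ≤ m → ∀ t : ℝ, t₀ ≤ t → t ≤ I.n + 1 → I.fval m t I.x ≤ 1 - δ := by
  obtain ⟨ε, hε, hgap⟩ := I.gap hG
  obtain ⟨Cm, hCm, hmult⟩ := I.mult_bound
  have hn : (1 : ℝ) ≤ I.n := by exact_mod_cast I.hn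
  have hn0 : (0 : ℝ) < I.n := by linarith
  set ε1 : ℝ := ε / 3 with hε1
  have hε1pos : 0 < ε1 := by positivity
  set r : ℝ := (I.n : ℝ) / (I.n + 1) + ε1 with hr
  have hr0 : (I.n : ℝ) / (I.n + 1) < r := by linarith
  have hq0 : 0 < (I.n : ℝ) / (I.n + 1) := by positivity
  have hrpos : 0 < r := by linarith
  set t₀ : ℝ := (I.n : ℝ) / r with ht₀
  have ht₀pos : 0 < t₀ := by positivity
  have ht₀lt : t₀ < I.n + 1 := by
    rw [ht₀, div_lt_iff₀ hrpos]
    have : (I.n : ℝ) = (I.n + 1) * ((I.n : ℝ) / (I.n + 1)) := by field_simp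
    calc (I.n : ℝ) = (I.n + 1) * ((I.n : ℝ) / (I.n + 1)) := this
      _ < (I.n + 1) * r := by
        apply mul_lt_mul_of_pos_left hr0
        positivity
  have hnt₀ : (I.n : ℝ) / t₀ = r := by
    rw [ht₀]
    field_simp
  set C : ℝ := r + Cm with hC
  have hCpos : 0 < C := by positivity
  obtain ⟨lam, δ, hlam, hδ, hδ1, hexp⟩ := exp_mean_le ε1 C hε1pos hCpos
  obtain ⟨m₀, hm₀⟩ := eventually_atTop.1 ((hgap.and I.N_pos).and (eventually_ge_atTop 1))
  refine ⟨t₀, δ, m₀, ht₀pos, ht₀lt, hδ, hδ1, fun m hm t ht ht' => ?_⟩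
  obtain ⟨⟨hgm, hNm⟩, hm1⟩ := hm₀ m hm
  have hmpos : (0 : ℝ) < m := by exact_mod_cast hm1
  have hNpos : (0 : ℝ) < I.S.N m := by exact_mod_cast hNm
  have htpos : 0 < t := lt_of_lt_of_le ht₀pos ht
  have h₁ : ∀ i : Fin I.n, (0 : ℝ) ≤ (fun _ => 1 : Fin I.n → ℝ) i := fun _ => zero_le_one
  have h₂ : ∀ i : Fin I.n, (0 : ℝ) ≤ (0 : Fin I.n → ℝ) i := fun _ => le_rfl
  obtain ⟨s, g, hsg⟩ := (I.chart I.x).exists_iniBasis h₁ h₂ m
  refine (I.fval_le (I.isTest_ord I.x hlam) hsg.1).trans ?_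
  rw [I.obj_ord I.x m t lam hlam hsg]
  have hnt : (I.n : ℝ) / t ≤ r := by
    rw [← hnt₀]
    exact div_le_div_of_nonneg_left hn0.le ht₀pos ht
  have hnt0 : 0 ≤ (I.n : ℝ) / t := by positivity
  apply hexp (I.S.N m) (fun i => (I.n : ℝ) / t - (∑ a, (g i a : ℝ)) / m) hNm
  · intro i
    have h3 : ∑ a, (g i a : ℝ) = wOrd (fun _ => 1) ((I.chart I.x).T m (s i)) := by
      rw [IniBasis.wOrd_eq (I.chart I.x) h₁ h₂ hsg i]
      simp [wdeg]
    have h4 : (∑ a, (g i a : ℝ)) ≤ Cm * m := by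
      rw [h3]
      exact hmult I.x m hm1 (s i) (hsg.1.1 i) (hsg.1.ne_zero i)
    have h5 : (∑ a, (g i a : ℝ)) / m ≤ Cm := by
      rw [div_le_iff₀ hmpos]
      exact h4
    have h6 : 0 ≤ (∑ a, (g i a : ℝ)) / m := by positivity
    rw [abs_le]
    constructor <;> linarith
  · have h7 : ∑ i, ∑ a, (g i a : ℝ) = ∑ γ ∈ I.H I.x m, ∑ i, (γ i : ℝ) := by
      rw [IniBasis.sum_eq (I.chart I.x) h₁ h₂ hsg (fun γ => ∑ a, (γ a : ℝ))]
      unfold Iface.H
      rw [Finset.sum_image]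
      intro a _ b _ hab
      exact DFunLike.coe_injective hab
    have h8 : (∑ i, ((I.n : ℝ) / t - (∑ a, (g i a : ℝ)) / m)) / I.S.N m
        = (I.n : ℝ) / t - (∑ γ ∈ I.H I.x m, ∑ i, (γ i : ℝ)) / (m * I.S.N m) := by
      rw [Finset.sum_sub_distrib, ← Finset.sum_div (s := Finset.univ)
        (f := fun i => ∑ a, (g i a : ℝ)) (a := (m : ℝ)), h7]
      simp only [Finset.sum_const, Finset.card_univ, Fintype.card_fin, nsmul_eq_mul]
      field_simp
    rw [h8]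
    have : ε = 3 * ε1 := by rw [hε1]; ring
    linarith

/-- (4.5): the number of initial exponents of small degree -/
theorem Iface.jet_count : ∃ (κ : ℝ) (m₁ : ℕ), 0 < κ ∧ ∀ m, m₁ ≤ m → ∀ z : Pt,
    κ * I.S.N m ≤ (((I.H z m).filter fun γ => 2 * (I.n + 1) * ∑ i, γ i ≤ m).card : ℝ) := by
  classical
  set D : ℕ := 2 * I.k₀ * (I.n + 1) with hD
  have hk₀ := I.hk₀
  have hDpos : 0 < D := by positivity
  set C : ℝ := max I.CN 1 with hC
  have hCpos : 0 < C := lt_of_lt_of_le one_pos (le_max_right _ _)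
  have hfac : (0 : ℝ) < (I.n.factorial : ℝ) := by exact_mod_cast Nat.factorial_pos _
  have hDR : (0 : ℝ) < (D : ℝ) := by exact_mod_cast hDpos
  refine ⟨1 / ((D : ℝ) ^ I.n * I.n.factorial * C), max 1 (2 * I.b₀), by positivity, fun m hm z => ?_⟩
  have hm1 : 1 ≤ m := le_trans (le_max_left _ _) hm
  have hm2 : 2 * I.b₀ ≤ m := le_trans (le_max_right _ _) hm
  set r : ℕ := m / D with hr
  have hrD : D * r ≤ m := Nat.mul_div_le m D
  have hrD' : m < D * (r + 1) := by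
    have := Nat.lt_mul_div_succ m hDpos
    simpa [hr] using this
  -- the simplex lies in the filter
  have hsub : ((Fintype.piFinset fun _ : Fin I.n => Finset.range (r + 1)).filter
      fun γ => ∑ i, γ i ≤ r) ⊆ (I.H z m).filter fun γ => 2 * (I.n + 1) * ∑ i, γ i ≤ m := by
    intro γ hγ
    have hγr : ∑ i, γ i ≤ r := (Finset.mem_filter.1 hγ).2
    refine Finset.mem_filter.2 ⟨I.H_jets z r m ?_ γ hγr, ?_⟩
    · have h1 : 2 * (I.k₀ * r) ≤ D * r := by
        rw [hD]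
        calc 2 * (I.k₀ * r) = 2 * I.k₀ * 1 * r := by ring
          _ ≤ 2 * I.k₀ * (I.n + 1) * r := by gcongr; omega
      omega
    · have h1 : 2 * (I.n + 1) * r ≤ D * r := by
        rw [hD]
        calc 2 * (I.n + 1) * r = 2 * 1 * (I.n + 1) * r := by ring
          _ ≤ 2 * I.k₀ * (I.n + 1) * r := by gcongr
      calc 2 * (I.n + 1) * ∑ i, γ i ≤ 2 * (I.n + 1) * r := Nat.mul_le_mul_left _ hγr
        _ ≤ m := h1.trans hrD
  have hcard := Finset.card_le_card hsub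
  rw [lat_card_simplex] at hcard
  have hch : ((r + 1 : ℕ) : ℝ) ^ I.n / I.n.factorial ≤ ((r + I.n).choose I.n : ℝ) := by
    have := Nat.pow_le_choose (α := ℝ) I.n (r + I.n)
    have e : ∀ a b : ℕ, a + b + 1 - b = a + 1 := fun a b => by omega
    rw [e] at this
    exact this
  have hN : (I.S.N m : ℝ) ≤ C * (m : ℝ) ^ I.n :=
    (I.card_up m hm1).trans (mul_le_mul_of_nonneg_right (le_max_left _ _) (by positivity))
  have hmr : (m : ℝ) ≤ D * ((r + 1 : ℕ) : ℝ) := by exact_mod_cast hrD'.le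
  have hpow : (m : ℝ) ^ I.n ≤ (D : ℝ) ^ I.n * ((r + 1 : ℕ) : ℝ) ^ I.n := by
    rw [← mul_pow]
    exact pow_le_pow_left₀ (by positivity) hmr _
  calc 1 / ((D : ℝ) ^ I.n * I.n.factorial * C) * I.S.N m
      ≤ 1 / ((D : ℝ) ^ I.n * I.n.factorial * C) * (C * ((D : ℝ) ^ I.n * ((r + 1 : ℕ) : ℝ) ^ I.n)) := by
        apply mul_le_mul_of_nonneg_left _ (by positivity)
        exact hN.trans (mul_le_mul_of_nonneg_left hpow hCpos.le)
    _ = ((r + 1 : ℕ) : ℝ) ^ I.n / I.n.factorial := by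
        field_simp
    _ ≤ ((r + I.n).choose I.n : ℝ) := hch
    _ ≤ _ := by exact_mod_cast hcard

theorem s4a_ncard_sub {k V ι : Type*} [Field k] [AddCommGroup V] [Module k V] [FiniteDimensional k V]
    (r : ι → ι → Prop) [IsWellOrder ι r] (T : V →ₗ[k] (ι → k)) (hT : Function.Injective T)
    (U : Submodule k V) : (iniSet r (T.comp U.subtype)).ncard = Module.finrank k U :=
  iniSet_ncard r _ (hT.comp U.subtype_injective)

theorem Iface.s4a_ncard (z : Pt) (m : ℕ) (U : Submodule ℂ (I.S.R m)) :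
    (iniSet (k := ℂ) (V := U) (monoLT (fun _ => 1) 0)
      (((I.chart z).lin m).comp U.subtype : U →ₗ[ℂ] ((Fin I.n →₀ ℕ) → ℂ))).ncard
      = Module.finrank ℂ U := by
  have : FiniteDimensional ℂ (I.S.R m) := I.S.fin m
  have h1 : ∀ i : Fin I.n, (0:ℝ) ≤ (fun _ => (1:ℝ)) i := fun _ => zero_le_one
  have h0 : ∀ i : Fin I.n, (0:ℝ) ≤ (0 : Fin I.n → ℝ) i := fun _ => le_rfl
  have : IsWellOrder (Fin I.n →₀ ℕ) (monoLT (fun _ => 1) 0) := monoLT_isWellOrder h1 h0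
  exact s4a_ncard_sub _ _ ((I.chart z).lin_injective m) U

theorem Iface.s4a_finrank_le (z : Pt) (m : ℕ) (U : Submodule ℂ (I.S.R m)) (r : ℝ)
    (hU : ∀ v ∈ U, v ≠ 0 → r < wOrd (fun _ => 1) ((I.chart z).T m (v : K))) :
    Module.finrank ℂ U ≤ ((I.H z m).filter fun γ => ¬ ((∑ i, γ i : ℕ) : ℝ) ≤ r).card := by
  have h1 : ∀ i : Fin I.n, (0:ℝ) ≤ (fun _ => (1:ℝ)) i := fun _ => zero_le_one
  have hsub : (fun γ : Fin I.n →₀ ℕ => (γ : Fin I.n → ℕ)) ''
      iniSet (k := ℂ) (V := U) (monoLT (fun _ => 1) 0)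
        (((I.chart z).lin m).comp U.subtype : U →ₗ[ℂ] ((Fin I.n →₀ ℕ) → ℂ)) ⊆
      ↑((I.H z m).filter fun γ => ¬ ((∑ i, γ i : ℕ) : ℝ) ≤ r) := by
    rintro _ ⟨γ, ⟨v, hv⟩, rfl⟩
    have hv' : IsIni (monoLT (fun _ => 1) 0)
        ((I.chart z).T m ((v : I.S.R m) : K) : (Fin I.n →₀ ℕ) → ℂ) γ := hv
    have hvne : (v : I.S.R m) ≠ 0 := by
      intro h00
      have : (((I.chart z).lin m).comp U.subtype : U →ₗ[ℂ] ((Fin I.n →₀ ℕ) → ℂ)) v = 0 := by
        rw [LinearMap.comp_apply, Submodule.subtype_apply, h00, map_zero]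
      exact hv.1 (by rw [this]; rfl)
    have hr := hU _ v.2 hvne
    rw [wOrd_eq_of_isIni h1 hv'] at hr
    have hw : wdeg (fun _ => (1:ℝ)) γ = ((∑ i, γ i : ℕ) : ℝ) := by
      unfold wdeg; push_cast; simp
    rw [hw] at hr
    rw [Finset.coe_filter]
    refine ⟨I.mem_H.2 ⟨_, (v : I.S.R m).2, ?_⟩, not_le.2 hr⟩
    have : toExp (γ : Fin I.n → ℕ) = γ := by
      unfold toExp; exact Finsupp.equivFunOnFinite_symm_coe γ
    rw [this]
    exact hv'
  rw [← I.s4a_ncard z m U, ← Set.ncard_image_of_injective _ DFunLike.coe_injective,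
    ← Set.ncard_coe_finset]
  exact Set.ncard_le_ncard hsub (Finset.finite_toSet _)

/-- in ANY basis of `R_m` at least `#{γ ∈ H z m : |γ| ≤ r}` vectors have multiplicity `≤ r` at `z`... and the same for any
filtration function dominated by the multiplicity: if `ν(s) > c` implies `mult_z(s) > r`, then at least that many basis vectors
have `ν ≤ c`. -/
theorem Iface.card_basis_le (z : Pt) (m : ℕ) (ν : K → ℝ) (hν : IsFilt ℂ (fun a : I.S.R m => ν a)) (c r : ℝ)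
    (h : ∀ s ∈ I.S.R m, s ≠ 0 → c < ν s → r < wOrd (fun _ => 1) ((I.chart z).T m s))
    {s : Fin (I.S.N m) → K} (hs : I.S.IsBasis m s) :
    ((I.H z m).filter fun γ => ((∑ i, γ i : ℕ) : ℝ) ≤ r).card ≤ (Finset.univ.filter fun i => ν (s i) ≤ c).card := by
  classical
  have : FiniteDimensional ℂ (I.S.R m) := I.S.fin m
  obtain ⟨b, hb⟩ := (I.S.isBasis_iff m s).1 hs
  have hle := I.s4a_finrank_le z m (filtGT ℂ hν c) r (by
    intro v hv hvne
    have hvK : (v : K) ≠ 0 := fun h00 => hvne (Subtype.ext h00)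
    have hvU : v = 0 ∨ c < ν (v : K) := hv
    exact h _ v.2 hvK (hvU.resolve_left hvne))
  have hsplit := Finset.card_filter_add_card_filter_not (s := I.H z m)
    (fun γ => ((∑ i, γ i : ℕ) : ℝ) ≤ r)
  rw [I.H_card] at hsplit
  have hcodim := card_basis_not_mem_ge b (filtGT ℂ hν c)
  have hN : Module.finrank ℂ (I.S.R m) = I.S.N m := rfl
  have hsub2 : (Finset.univ.filter fun i => b i ∉ filtGT ℂ hν c) ⊆
      Finset.univ.filter fun i => ν (s i) ≤ c := by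
    intro i hi
    have hi' : b i ∉ filtGT ℂ hν c := (Finset.mem_filter.1 hi).2
    refine Finset.mem_filter.2 ⟨Finset.mem_univ _, ?_⟩
    by_contra hcon
    apply hi'
    right
    show c < ν ((b i : I.S.R m) : K)
    rw [hb i]
    exact not_le.1 hcon
  have := Finset.card_le_card hsub2
  omega

/-- (4.6) -/
theorem Iface.obj_coercive : ∃ (κ : ℝ) (m₁ : ℕ), 0 < κ ∧ ∀ m, m₁ ≤ m → ∀ t : ℝ, 0 < t → t ≤ I.n + 1 →
    ∀ z G k u s, I.IsTest z G k u → I.S.IsBasis m s →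
      κ * Real.exp (disc k u / (2 * (I.n + 1))) ≤ I.obj m t G k u s := by
  classical
  obtain ⟨κ, m₁, hκ, hjet⟩ := I.jet_count
  obtain ⟨m₂, hm₂⟩ := eventually_atTop.1 I.N_pos
  refine ⟨κ, max (max m₁ m₂) 1, hκ, fun m hm t ht ht' z G k u s hT hs => ?_⟩
  have hm1 : m₁ ≤ m := le_trans (le_trans (le_max_left _ _) (le_max_left _ _)) hm
  have hm2 : m₂ ≤ m := le_trans (le_trans (le_max_right _ _) (le_max_left _ _)) hm
  have hm3 : 1 ≤ m := le_trans (le_max_right _ _) hm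
  have hmR : (0 : ℝ) < m := by exact_mod_cast hm3
  have hN : (0 : ℝ) < I.S.N m := by exact_mod_cast hm₂ m hm2
  have ha : 0 < disc k u := disc_pos k hT.2.1 hT.2.2
  set a : ℝ := disc k u with hadef
  have hcb := I.card_basis_le z m (fun b => wOrd u (G.T m b)) (G.isFilt hT.2.1 m)
    (m * a / (2 * t)) (m / (2 * t)) (by
      intro s' hs' h0 hc
      have hv := I.val_le z G k u hT.1 hT.2.1 m s' hs' h0
      by_contra hcon
      have hcon' := not_lt.1 hcon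
      have h3 : a * wOrd (fun _ => 1) ((I.chart z).T m s') ≤ a * (m / (2 * t)) :=
        mul_le_mul_of_nonneg_left hcon' ha.le
      have h4 : a * ((m : ℝ) / (2 * t)) = m * a / (2 * t) := by ring
      linarith) hs
  have hsub : ((I.H z m).filter fun γ => 2 * (I.n + 1) * ∑ i, γ i ≤ m) ⊆
      (I.H z m).filter fun γ => ((∑ i, γ i : ℕ) : ℝ) ≤ m / (2 * t) := by
    intro γ hγ
    obtain ⟨h1, h2⟩ := Finset.mem_filter.1 hγ
    refine Finset.mem_filter.2 ⟨h1, ?_⟩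
    rw [le_div_iff₀ (by positivity)]
    have h2' : (2 * ((I.n : ℝ) + 1)) * ((∑ i, γ i : ℕ) : ℝ) ≤ m := by exact_mod_cast h2
    have h3 : (0 : ℝ) ≤ ((∑ i, γ i : ℕ) : ℝ) := Nat.cast_nonneg _
    nlinarith
  have hcard : κ * I.S.N m ≤ ((Finset.univ.filter fun i => wOrd u (G.T m (s i)) ≤ m * a / (2 * t)).card : ℝ) := by
    refine (hjet m hm1 z).trans ?_
    exact_mod_cast (Finset.card_le_card hsub).trans hcb
  have hterm : ∀ i ∈ Finset.univ.filter fun i => wOrd u (G.T m (s i)) ≤ m * a / (2 * t),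
      Real.exp (a / (2 * (I.n + 1))) ≤ Real.exp (a / t - wOrd u (G.T m (s i)) / m) := by
    intro i hi
    have hi' := (Finset.mem_filter.1 hi).2
    apply Real.exp_le_exp.2
    have h1 : wOrd u (G.T m (s i)) / m ≤ a / (2 * t) := by
      rw [div_le_iff₀ hmR]
      calc wOrd u (G.T m (s i)) ≤ m * a / (2 * t) := hi'
        _ = a / (2 * t) * m := by ring
    have h2 : a / (2 * (I.n + 1)) ≤ a / (2 * t) :=
      div_le_div_of_nonneg_left ha.le (by positivity) (by linarith)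
    have h3 : a / t = a / (2 * t) + a / (2 * t) := by field_simp; ring
    linarith
  have hsum : ((Finset.univ.filter fun i => wOrd u (G.T m (s i)) ≤ m * a / (2 * t)).card : ℝ) *
      Real.exp (a / (2 * (I.n + 1))) ≤ ∑ i, Real.exp (a / t - wOrd u (G.T m (s i)) / m) := by
    calc _ = ∑ _i ∈ Finset.univ.filter fun i => wOrd u (G.T m (s i)) ≤ m * a / (2 * t),
          Real.exp (a / (2 * (I.n + 1))) := by rw [Finset.sum_const, nsmul_eq_mul]
      _ ≤ ∑ i ∈ Finset.univ.filter fun i => wOrd u (G.T m (s i)) ≤ m * a / (2 * t),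
          Real.exp (a / t - wOrd u (G.T m (s i)) / m) := Finset.sum_le_sum hterm
      _ ≤ _ := Finset.sum_le_sum_of_subset_of_nonneg (Finset.filter_subset _ _)
          (fun i _ _ => (Real.exp_pos _).le)
  unfold Iface.obj objF
  rw [le_div_iff₀ hN]
  calc κ * Real.exp (a / (2 * (I.n + 1))) * I.S.N m
      = κ * I.S.N m * Real.exp (a / (2 * (I.n + 1))) := by ring
    _ ≤ _ := (mul_le_mul_of_nonneg_right hcard (Real.exp_pos _).le).trans hsum

theorem Iface.obj_small {Cm : ℝ}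
    (hmult : ∀ (z : Pt) (j : ℕ), 1 ≤ j → ∀ s ∈ I.S.R j, s ≠ 0 → wOrd (fun _ => 1) ((I.chart z).T j s) ≤ Cm * j)
    {m : ℕ} (hm : 1 ≤ m) (hN : 0 < I.S.N m) {t : ℝ} (ht : 0 < t) {z : Pt} {G : GChart I.S I.n} {k : Fin I.n → ℕ}
    {u : Fin I.n → ℝ} {s : Fin (I.S.N m) → K} (h : I.IsTest z G k u) (hs : I.S.IsBasis m s) :
    Real.exp (-(Cm * disc k u)) ≤ I.obj m t G k u s := by
  have hm0 : (0 : ℝ) < (m : ℝ) := by exact_mod_cast hm
  have hN0 : (0 : ℝ) < (I.S.N m : ℝ) := by exact_mod_cast hN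
  have ha : 0 ≤ disc k u := disc_nonneg k h.2.1
  unfold Iface.obj objF
  rw [le_div_iff₀ hN0]
  have hterm : ∀ i : Fin (I.S.N m), Real.exp (-(Cm * disc k u)) ≤
      Real.exp (disc k u / t - wOrd u (G.T m (s i)) / m) := by
    intro i
    apply Real.exp_le_exp.2
    have h1 := I.val_le_mult hmult h hm (hs.1 i) (hs.ne_zero i)
    have h2 : wOrd u (G.T m (s i)) / m ≤ Cm * disc k u := by
      rw [div_le_iff₀ hm0]
      linarith
    have h3 : 0 ≤ disc k u / t := div_nonneg ha ht.le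
    linarith
  calc Real.exp (-(Cm * disc k u)) * (I.S.N m : ℝ)
      = ∑ _i : Fin (I.S.N m), Real.exp (-(Cm * disc k u)) := by
        rw [Finset.sum_const, Finset.card_univ, Fintype.card_fin, nsmul_eq_mul, mul_comm]
    _ ≤ _ := Finset.sum_le_sum fun i _ => hterm i

/-- **Lemma 4.2** -/
theorem Iface.exists_bounds (hG : ¬ I.Gen) : Nonempty I.Bounds := by
  obtain ⟨Cm, hCm, hmult⟩ := I.mult_bound
  obtain ⟨mN, hmN⟩ := eventually_atTop.1 I.N_pos
  obtain ⟨t₀, δ, m₀, ht₀, ht₀', hδ, hδ', hup⟩ := I.fval_upper hG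
  obtain ⟨κ, m₁, hκ, hco⟩ := I.obj_coercive
  have hn1 : (0 : ℝ) < 2 * ((I.n : ℝ) + 1) := by positivity
  have hlog : Real.log (1 - δ / 2) < 0 := Real.log_neg (by linarith) (by linarith)
  have haS : 0 < -Real.log (1 - δ / 2) / (2 * Cm) := div_pos (by linarith) (by positivity)
  set M : ℕ := max (max mN m₀) (max m₁ 1) with hM
  have hM1 : mN ≤ M := (le_max_left _ _).trans (le_max_left _ _)
  have hM2 : m₀ ≤ M := (le_max_right _ _).trans (le_max_left _ _)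
  have hM3 : m₁ ≤ M := (le_max_left _ _).trans (le_max_right _ _)
  have hM4 : 1 ≤ M := (le_max_right _ _).trans (le_max_right _ _)
  have hsmall : ∀ m, M ≤ m → ∀ t : ℝ, 0 < t → ∀ z G k u s, I.IsTest z G k u → I.S.IsBasis m s →
      Real.exp (-(Cm * disc k u)) ≤ I.obj m t G k u s := fun m hm t ht z G k u s h hs =>
    I.obj_small hmult (hM4.trans hm) (hmN m (hM1.trans hm)) ht h hs
  refine ⟨{
    t₀ := t₀
    δ := δ
    κ := κ
    aS := -Real.log (1 - δ / 2) / (2 * Cm)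
    aL := max (-Real.log (1 - δ / 2) / (2 * Cm)) (2 * ((I.n : ℝ) + 1) * Real.log (1 / κ))
    Cm := Cm
    m₀ := M
    ht₀ := ht₀
    ht₀' := ht₀'
    hδ := hδ
    hδ' := hδ'
    hκ := hκ
    haS := haS
    haSL := le_max_left _ _
    hCm := hCm
    hm₀ := hM4
    N_pos := fun m hm => hmN m (hM1.trans hm)
    mult := hmult
    upper := fun m hm => hup m (hM2.trans hm)
    coer := fun m hm => hco m (hM3.trans hm)
    small := hsmall
    disc_bd := ?_ }⟩
  intro m hm t ht ht' z G k u s h hs hle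
  constructor
  · have h1 := (hsmall m hm t ht z G k u s h hs).trans hle
    have h2 : -(Cm * disc k u) ≤ Real.log (1 - δ / 2) := by
      rw [Real.le_log_iff_exp_le (by linarith)]
      exact h1
    have ha : 0 ≤ disc k u := disc_nonneg k h.2.1
    rw [div_le_iff₀ (by positivity)]
    nlinarith
  · refine le_trans ?_ (le_max_right _ _)
    have h1 := (hco m (hM3.trans hm) t ht ht' z G k u s h hs).trans hle
    have h2 : Real.exp (disc k u / (2 * ((I.n : ℝ) + 1))) ≤ 1 / κ := by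
      rw [le_div_iff₀ hκ]
      linarith
    have h3 : disc k u / (2 * ((I.n : ℝ) + 1)) ≤ Real.log (1 / κ) := by
      rw [Real.le_log_iff_exp_le (by positivity)]
      exact h2
    rw [div_le_iff₀ hn1] at h3
    linarith

variable {I}

theorem Iface.Bounds.fval_ge (B : I.Bounds) {m : ℕ} (hm : B.m₀ ≤ m) {t : ℝ} (ht : 0 < t) (ht' : t ≤ I.n + 1) (z : Pt) :
    B.κ ≤ I.fval m t z := by
  unfold Iface.fval
  refine le_csInf (I.objSet_nonempty m t z) ?_
  rintro _ ⟨G, k, u, s, h, hs, rfl⟩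
  refine le_trans ?_ (B.coer m hm t ht ht' z G k u s h hs)
  have ha : 0 ≤ disc k u := disc_nonneg k h.2.1
  have h1 : 1 ≤ Real.exp (disc k u / (2 * ((I.n : ℝ) + 1))) := Real.one_le_exp (by positivity)
  have := B.hκ
  nlinarith

end Claimed.Agent.R242
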