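/-
R242 / Core / S4b : lower semicontinuity of `f_{m,t}` at `x` along sequences, and attainment (Proposition 4.4, Lemma 4.5 of the
paper; flags, constructibility and "very general points" are replaced by unitary matrices and the field (RL) of the contract).
Architect: helper100.
-/
import Mathlib
import Claimed.Agent.R242.Core.S4a
import Claimed.Agent.R242.Cvx.Seq
import Claimed.Agent.R242.Cvx.Rigid

set_option autoImplicit false

namespace Claimed.Agent.R242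

open Filter Topology Finset

variable {K : Type*} [Field K] [Algebra ℂ K] {Pt : Type*} [TopologicalSpace Pt] (I : Iface K Pt)

/-- a cell of the monomialisation of the basis `s` with numerical data in `𝒟` -/
def Iface.IsCell (m : ℕ) (s : Fin (I.S.N m) → K) (𝒟 : Finset ((Fin I.n → ℕ) × (Fin I.n → Fin (I.S.N m) → ℕ)))
    (G : GChart I.S I.n) (k : Fin I.n → ℕ) (o : Fin I.n → Fin (I.S.N m) → ℕ) : Prop :=
  (k, o) ∈ 𝒟 ∧ I.TC I.x G k ∧ MonoIn m s G o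

/-- the property (RL) of the contract -/
def Iface.RL (m : ℕ) (s : Fin (I.S.N m) → K) (𝒟 : Finset ((Fin I.n → ℕ) × (Fin I.n → Fin (I.S.N m) → ℕ))) : Prop :=
  ∀ (e : Fin (I.S.N m) → K) (U : Matrix (Fin (I.S.N m)) (Fin (I.S.N m)) ℂ), I.S.IsBasis m e →
    (∀ i, s i = ∑ j, U i j • e j) →
    ∀ (z : ℕ → Pt) (Us : ℕ → Matrix (Fin (I.S.N m)) (Fin (I.S.N m)) ℂ) (Gs : ℕ → GChart I.S I.n)
      (ks : ℕ → Fin I.n → ℕ) (us : ℕ → Fin I.n → ℝ) (α : Fin (I.S.N m) → ℝ) (c : ℝ),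
      Tendsto z atTop (𝓝 I.x) → Tendsto Us atTop (𝓝 U) → (∀ l, I.TC (z l) (Gs l) (ks l)) →
      (∀ l i, 0 ≤ us l i) → (∀ l, us l ≠ 0) → (∀ i, 0 ≤ α i) → (∃ i, 0 < α i) →
      (∀ l i, α i * disc (ks l) (us l) ≤ wOrd (us l) ((Gs l).T m (∑ j, Us l i j • e j))) → 1 < c →
      ∃ (G : GChart I.S I.n) (k : Fin I.n → ℕ) (o : Fin I.n → Fin (I.S.N m) → ℕ) (u : Fin I.n → ℝ),
        I.IsCell m s 𝒟 G k o ∧ (∀ i, 0 ≤ u i) ∧ u ≠ 0 ∧ ∀ i, α i * disc k u ≤ c * ow o u i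

/-- the property (LT) of the contract -/
def Iface.LT (m : ℕ) (s : Fin (I.S.N m) → K) (𝒟 : Finset ((Fin I.n → ℕ) × (Fin I.n → Fin (I.S.N m) → ℕ))) : Prop :=
  ∀ (b q : Fin (I.S.N m) → ℝ) (η θ : ℝ), (∀ i, 0 < b i) → (∀ i, 0 ≤ q i) → (∃ i, 0 < q i) →
    0 < η → η < 1 → 0 < θ →
    (∀ i, 0 < q i → (1 - η) * (m * ∑ i', b i') + η * (m / q i) < I.mm) →
    (∑ i, b i * q i = 1) →
    (∃ (G : GChart I.S I.n) (k : Fin I.n → ℕ) (o : Fin I.n → Fin (I.S.N m) → ℕ) (u : Fin I.n → ℝ),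
      I.IsCell m s 𝒟 G k o ∧ (∀ i, 0 ≤ u i) ∧ u ≠ 0 ∧ ∀ i, ow o u i = disc k u * q i) →
    (∀ (G : GChart I.S I.n) (k : Fin I.n → ℕ) (o : Fin I.n → Fin (I.S.N m) → ℕ) (u : Fin I.n → ℝ),
      I.IsCell m s 𝒟 G k o → (∀ i, 0 ≤ u i) → u ≠ 0 →
      (∃ μ : ℝ, 0 < μ ∧ ∀ i, |ow o u i - μ * q i| ≤ θ * μ) →
      (∃ i, 0 < q i ∧ (1 - η) * ∑ i', b i' * ow o u i' + η * (ow o u i / q i) < disc k u) ∨
      ((∀ i, ow o u i = disc k u * q i) ∧ I.IsPt G (wsupp u))) →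
    I.Gen

/-- the field `mono` in terms of `RL`, `LT` -/
theorem Iface.mono' (m : ℕ) (s : Fin (I.S.N m) → K) (hs : I.S.IsBasis m s) : ∃ 𝒟, I.RL m s 𝒟 ∧ I.LT m s 𝒟 := by
  obtain ⟨𝒟, h1, h2⟩ := I.mono m s hs
  refine ⟨𝒟, ?_, ?_⟩
  · intro e U he hU z Us Gs ks us α c a1 a2 a3 a4 a5 a6 a7 a8 a9
    obtain ⟨G, k, o, u, b1, b2, b3, b4⟩ := h1 e U he hU z Us Gs ks us α c a1 a2 a3 a4 a5 a6 a7 a8 a9
    exact ⟨G, k, o, u, ⟨b1, b2, b3⟩, b4⟩
  · intro b q η θ a1 a2 a3 a4 a5 a6 a7 a7' a8 a9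
    refine h2 b q η θ a1 a2 a3 a4 a5 a6 a7 a7' ?_ ?_
    · obtain ⟨G, k, o, u, ⟨b1, b2, b3⟩, b4⟩ := a8
      exact ⟨G, k, o, u, b1, b2, b3, b4⟩
    · intro G k o u b1 b2 b3
      exact a9 G k o u ⟨b1, b2, b3⟩

/-- objective of a test in a cell in terms of `Phi` -/
theorem Iface.obj_cell_Phi {m : ℕ} (t : ℝ) {G : GChart I.S I.n} (k : Fin I.n → ℕ) {u : Fin I.n → ℝ} (hu : ∀ i, 0 ≤ u i)
    {s : Fin (I.S.N m) → K} {o : Fin I.n → Fin (I.S.N m) → ℕ} (h : MonoIn m s G o) {a : ℝ} {q : Fin (I.S.N m) → ℝ}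
    (ha : disc k u = a) (hq : ∀ i, ow o u i = a * q i) : I.obj m t G k u s = Phi (m : ℝ) t a q := by
  rw [I.obj_cell t k hu h, ha]
  unfold Phi
  congr 1
  refine Finset.sum_congr rfl fun i _ => ?_
  rw [hq i]

/-- `q` is a limit profile at `x` for the basis `s`: there are tests at points `z l → x` and bases `Us l • e → s` whose normalized
orders are eventually `≥ q - ε`. -/
def Iface.LimProfile (m : ℕ) (s : Fin (I.S.N m) → K) (q : Fin (I.S.N m) → ℝ) : Prop :=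
  ∃ (e : Fin (I.S.N m) → K) (U : Matrix (Fin (I.S.N m)) (Fin (I.S.N m)) ℂ) (z : ℕ → Pt)
    (Us : ℕ → Matrix (Fin (I.S.N m)) (Fin (I.S.N m)) ℂ) (Gs : ℕ → GChart I.S I.n) (ks : ℕ → Fin I.n → ℕ)
    (us : ℕ → Fin I.n → ℝ),
    I.S.IsBasis m e ∧ (∀ i, s i = ∑ j, U i j • e j) ∧ Tendsto z atTop (𝓝 I.x) ∧ Tendsto Us atTop (𝓝 U) ∧
    (∀ l, I.IsTest (z l) (Gs l) (ks l) (us l)) ∧
    ∀ ε : ℝ, 0 < ε → ∀ᶠ l in atTop, ∀ i,
      (q i - ε) * disc (ks l) (us l) ≤ wOrd (us l) ((Gs l).T m (∑ j, Us l i j • e j))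

/-- one application of (RL): for every `ε > 0` a cell and normalized weights with `(q_i - ε) ≤ (1 + ε) <u, o_i>` -/
theorem Iface.limProfile_step {m : ℕ} {s : Fin (I.S.N m) → K} {q : Fin (I.S.N m) → ℝ} (h : I.LimProfile m s q)
    (hq0 : ∃ i, 0 < q i) {𝒟 : Finset ((Fin I.n → ℕ) × (Fin I.n → Fin (I.S.N m) → ℕ))} (hRL : I.RL m s 𝒟)
    {ε : ℝ} (hε : 0 < ε) :
    ∃ (G : GChart I.S I.n) (k : Fin I.n → ℕ) (o : Fin I.n → Fin (I.S.N m) → ℕ) (u : Fin I.n → ℝ),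
      I.IsCell m s 𝒟 G k o ∧ (∀ i, 0 ≤ u i) ∧ disc k u = 1 ∧ ∀ i, q i - ε ≤ (1 + ε) * ow o u i := by
  obtain ⟨e, U, z, Us, Gs, ks, us, he, hU, hz, hUs, htest, hlim⟩ := h
  obtain ⟨i₀, hi₀⟩ := hq0
  set ε' : ℝ := min ε (q i₀ / 2) with hε'
  have hε'0 : 0 < ε' := lt_min hε (by linarith)
  have hε'1 : ε' ≤ ε := min_le_left _ _
  have hε'2 : ε' ≤ q i₀ / 2 := min_le_right _ _
  obtain ⟨L, hL⟩ := eventually_atTop.1 (hlim ε' hε'0)
  set α : Fin (I.S.N m) → ℝ := fun i => max (q i - ε') 0 with hα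
  have hα0 : ∀ i, 0 ≤ α i := fun i => le_max_right _ _
  have hαpos : ∃ i, 0 < α i := ⟨i₀, lt_of_lt_of_le (by linarith) (le_max_left _ _)⟩
  have hord : ∀ l i, α i * disc (ks (l + L)) (us (l + L)) ≤
      wOrd (us (l + L)) ((Gs (l + L)).T m (∑ j, Us (l + L) i j • e j)) := by
    intro l i
    rcases le_total 0 (q i - ε') with h0 | h0
    · have : α i = q i - ε' := max_eq_left h0
      rw [this]
      exact hL (l + L) (Nat.le_add_left _ _) i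
    · have : α i = 0 := max_eq_right h0
      rw [this, zero_mul]
      exact wOrd_nonneg (htest (l + L)).2.1 _
  obtain ⟨G, k, o, u, hcell, hu, hu0, hle⟩ := hRL e U he hU (fun l => z (l + L)) (fun l => Us (l + L))
    (fun l => Gs (l + L)) (fun l => ks (l + L)) (fun l => us (l + L)) α (1 + ε)
    ((tendsto_add_atTop_iff_nat L).2 hz) ((tendsto_add_atTop_iff_nat L).2 hUs)
    (fun l => (htest (l + L)).1) (fun l => (htest (l + L)).2.1) (fun l => (htest (l + L)).2.2) hα0 hαpos hord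
    (by linarith)
  have hd : 0 < disc k u := disc_pos k hu hu0
  refine ⟨G, k, o, fun i => (disc k u)⁻¹ * u i, hcell, fun i => mul_nonneg (inv_pos.2 hd).le (hu i), ?_, ?_⟩
  · rw [disc_smul, inv_mul_cancel₀ hd.ne']
  · intro i
    rw [ow_smul]
    have h1 : q i - ε ≤ α i := le_trans (by linarith) (le_max_left _ _)
    have h2 : α i ≤ (1 + ε) * ((disc k u)⁻¹ * ow o u i) := by
      have h3 := hle i
      have h4 : α i = (disc k u)⁻¹ * (α i * disc k u) := by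
        field_simp
      rw [h4]
      calc (disc k u)⁻¹ * (α i * disc k u) ≤ (disc k u)⁻¹ * ((1 + ε) * ow o u i) :=
            mul_le_mul_of_nonneg_left h3 (inv_pos.2 hd).le
        _ = (1 + ε) * ((disc k u)⁻¹ * ow o u i) := by ring
    exact h1.trans h2

/-- **realisation of a limit profile in a cell** (pigeonhole on `𝒟`, compactness of the simplex `disc k u = 1`) -/
theorem Iface.limProfile_cell {m : ℕ} {s : Fin (I.S.N m) → K} {q : Fin (I.S.N m) → ℝ} (h : I.LimProfile m s q)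
    (hq0 : ∃ i, 0 < q i) {𝒟 : Finset ((Fin I.n → ℕ) × (Fin I.n → Fin (I.S.N m) → ℕ))} (hRL : I.RL m s 𝒟) :
    ∃ (G : GChart I.S I.n) (k : Fin I.n → ℕ) (o : Fin I.n → Fin (I.S.N m) → ℕ) (u : Fin I.n → ℝ),
      I.IsCell m s 𝒟 G k o ∧ (∀ i, 0 ≤ u i) ∧ disc k u = 1 ∧ ∀ i, q i ≤ ow o u i := by
  have hstep : ∀ p : ℕ, ∃ (G : GChart I.S I.n) (k : Fin I.n → ℕ) (o : Fin I.n → Fin (I.S.N m) → ℕ)
      (u : Fin I.n → ℝ), I.IsCell m s 𝒟 G k o ∧ (∀ i, 0 ≤ u i) ∧ disc k u = 1 ∧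
        ∀ i, q i - 1 / ((p : ℝ) + 1) ≤ (1 + 1 / ((p : ℝ) + 1)) * ow o u i := fun p =>
    I.limProfile_step h hq0 hRL (by positivity)
  choose Gs ks os us hcell hu hd hle using hstep
  obtain ⟨⟨k, o⟩, -, φ, hφ, hko⟩ := pigeon_subseq 𝒟 (fun p => (ks p, os p)) (fun p => (hcell p).1)
  have hk : ∀ p, ks (φ p) = k := fun p => (Prod.mk.inj (hko p)).1
  have ho : ∀ p, os (φ p) = o := fun p => (Prod.mk.inj (hko p)).2
  have hbox : ∀ p i, 0 ≤ us (φ p) i ∧ us (φ p) i ≤ 1 := by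
    intro p i
    refine ⟨hu (φ p) i, ?_⟩
    have h1 : us (φ p) i * (1 + (ks (φ p) i : ℝ)) ≤ disc (ks (φ p)) (us (φ p)) := by
      unfold disc
      exact Finset.single_le_sum (f := fun i => us (φ p) i * (1 + (ks (φ p) i : ℝ)))
        (fun j _ => mul_nonneg (hu (φ p) j) (by positivity)) (Finset.mem_univ i)
    rw [hd] at h1
    have h2 : (0 : ℝ) ≤ (ks (φ p) i : ℝ) := by positivity
    have h3 := hu (φ p) i
    nlinarith
  obtain ⟨u0, hu0, ψ, hψ, hlim⟩ := box_subseq 0 1 (fun p => us (φ p)) hbox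
  have hcoord : ∀ j, Tendsto (fun p => us (φ (ψ p)) j) atTop (𝓝 (u0 j)) := fun j =>
    (tendsto_pi_nhds.1 hlim) j
  refine ⟨Gs (φ 0), k, o, u0, ?_, fun i => (hu0 i).1, ?_, ?_⟩
  · have := hcell (φ 0)
    rw [hk 0, ho 0] at this
    exact this
  · have h1 : Tendsto (fun p => disc k (us (φ (ψ p)))) atTop (𝓝 (disc k u0)) := by
      unfold disc
      exact tendsto_finsetSum _ fun j _ => (hcoord j).mul_const _
    have h2 : ∀ p, disc k (us (φ (ψ p))) = 1 := fun p => by rw [← hk (ψ p)]; exact hd _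
    simp only [h2] at h1
    exact (tendsto_nhds_unique h1 tendsto_const_nhds)
  · intro i
    have h1 : Tendsto (fun p => ow o (us (φ (ψ p))) i) atTop (𝓝 (ow o u0 i)) := by
      unfold ow
      exact tendsto_finsetSum _ fun j _ => (hcoord j).mul_const _
    have hεt : Tendsto (fun p : ℕ => 1 / (((φ (ψ p) : ℕ) : ℝ) + 1)) atTop (𝓝 0) :=
      (tendsto_one_div_add_atTop_nhds_zero_nat (𝕜 := ℝ)).comp ((hφ.comp hψ).tendsto_atTop)
    have h2 : Tendsto (fun p : ℕ => q i - 1 / (((φ (ψ p) : ℕ) : ℝ) + 1)) atTop (𝓝 (q i - 0)) :=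
      tendsto_const_nhds.sub hεt
    have h3 : Tendsto (fun p : ℕ => (1 + 1 / (((φ (ψ p) : ℕ) : ℝ) + 1)) * ow o (us (φ (ψ p))) i) atTop
        (𝓝 ((1 + 0) * ow o u0 i)) := (tendsto_const_nhds.add hεt).mul h1
    have h4 := le_of_tendsto_of_tendsto' h2 h3 fun p => by
      have := hle (φ (ψ p)) i
      rw [ho (ψ p)] at this
      exact this
    simpa using h4

/-- normal form of one pair (test, basis) with respect to a reference basis `e`: a unitary matrix `U` and a profile `q` -/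
theorem Iface.normal_form {Cm : ℝ}
    (hmult : ∀ (z : Pt) (j : ℕ), 1 ≤ j → ∀ s ∈ I.S.R j, s ≠ 0 → wOrd (fun _ => 1) ((I.chart z).T j s) ≤ Cm * j)
    {m : ℕ} (hm : 1 ≤ m) (t : ℝ) {e : Fin (I.S.N m) → K} (he : I.S.IsBasis m e) {z : Pt} {G : GChart I.S I.n}
    {k : Fin I.n → ℕ} {u : Fin I.n → ℝ} {s : Fin (I.S.N m) → K} (h : I.IsTest z G k u) (hs : I.S.IsBasis m s) :
    ∃ U ∈ Matrix.unitaryGroup (Fin (I.S.N m)) ℂ, ∃ q : Fin (I.S.N m) → ℝ, (∀ i, 0 ≤ q i ∧ q i ≤ Cm * m) ∧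
      (∀ i, q i * disc k u ≤ wOrd u (G.T m (∑ j, U i j • e j))) ∧
      Phi (m : ℝ) t (disc k u) q = I.obj m t G k u s := by
  obtain ⟨be, hbe⟩ := (I.S.isBasis_iff m e).1 he
  obtain ⟨bs, hbs⟩ := (I.S.isBasis_iff m s).1 hs
  have hfilt := G.isFilt h.2.1 m
  obtain ⟨U, hU, π, -, hπ⟩ := exists_unitary_basis be bs hfilt
  have ha : 0 < disc k u := disc_pos k h.2.1 h.2.2
  refine ⟨U, hU, fun i => wOrd u (G.T m (s (π i))) / disc k u, fun i => ⟨?_, ?_⟩, fun i => ?_, ?_⟩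
  · exact div_nonneg (wOrd_nonneg h.2.1 _) ha.le
  · rw [div_le_iff₀ ha]
    have := I.val_le_mult hmult h hm (hs.1 (π i)) (hs.ne_zero (π i))
    linarith
  · rw [div_mul_cancel₀ _ ha.ne']
    have h1 := hπ i
    have h2 : (((∑ j, U i j • be j : I.S.R m)) : K) = ∑ j, U i j • e j := by
      rw [Submodule.coe_sum]
      refine Finset.sum_congr rfl fun j _ => ?_
      rw [Submodule.coe_smul, hbe]
    rw [hbs, h2] at h1
    exact h1
  · unfold Phi Iface.obj objF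
    congr 1
    rw [← Equiv.sum_comp π (fun i => Real.exp (disc k u / t - wOrd u (G.T m (s i)) / m))]
    refine Finset.sum_congr rfl fun i _ => ?_
    rw [mul_div_cancel₀ _ ha.ne']

variable {I}

/-- **extraction of a limit profile** from a sequence of pairs at points `z l → x` whose objectives have upper limit `≤ c < 1` -/
theorem Iface.Bounds.lsc_extract (B : I.Bounds) {m : ℕ} (hm : B.m₀ ≤ m) {t : ℝ} (ht : 0 < t) (ht' : t ≤ I.n + 1)
    (z : ℕ → Pt) (hz : Tendsto z atTop (𝓝 I.x)) (Gs : ℕ → GChart I.S I.n) (ks : ℕ → Fin I.n → ℕ)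
    (us : ℕ → Fin I.n → ℝ) (ss : ℕ → Fin (I.S.N m) → K) (htest : ∀ l, I.IsTest (z l) (Gs l) (ks l) (us l))
    (hbas : ∀ l, I.S.IsBasis m (ss l)) (cs : ℕ → ℝ) (c : ℝ) (hcs : Tendsto cs atTop (𝓝 c)) (hc : c < 1)
    (hobj : ∀ l, I.obj m t (Gs l) (ks l) (us l) (ss l) ≤ cs l) :
    ∃ (s : Fin (I.S.N m) → K) (q : Fin (I.S.N m) → ℝ) (a : ℝ), I.S.IsBasis m s ∧ I.LimProfile m s q ∧
      (∀ i, 0 ≤ q i) ∧ 0 < a ∧ Phi (m : ℝ) t a q ≤ c := by
  have hm1 : 1 ≤ m := le_trans B.hm₀ hm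
  obtain ⟨e, he⟩ := I.S.exists_isBasis m
  choose U hU q hq1 hq2 hq3 using fun l => I.normal_form B.mult hm1 t he (htest l) (hbas l)
  -- bounds for the discrepancies
  have hc1 : c < (c + 1) / 2 := by linarith
  have hc1' : (c + 1) / 2 < 1 := by linarith
  obtain ⟨L, hL⟩ := eventually_atTop.1 ((hcs.eventually (Iio_mem_nhds hc1)).mono fun l hl => le_of_lt hl)
  have hobj' : ∀ l, L ≤ l → I.obj m t (Gs l) (ks l) (us l) (ss l) ≤ (c + 1) / 2 := fun l hl =>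
    (hobj l).trans (hL l hl)
  have hlow : ∀ l, L ≤ l → Real.exp (-(B.Cm * disc (ks l) (us l))) ≤ (c + 1) / 2 := fun l hl =>
    (B.small m hm t ht (z l) _ _ _ _ (htest l) (hbas l)).trans (hobj' l hl)
  have hc1pos : 0 < (c + 1) / 2 := lt_of_lt_of_le (Real.exp_pos _) (hlow L le_rfl)
  have hlog : Real.log ((c + 1) / 2) < 0 := Real.log_neg hc1pos hc1'
  have haS : ∀ l, L ≤ l → -Real.log ((c + 1) / 2) / B.Cm ≤ disc (ks l) (us l) := by
    intro l hl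
    have h1 := (Real.le_log_iff_exp_le hc1pos).2 (hlow l hl)
    rw [div_le_iff₀ B.hCm]
    linarith
  have hn1 : (0 : ℝ) < 2 * ((I.n : ℝ) + 1) := by positivity
  have haL : ∀ l, L ≤ l → disc (ks l) (us l) ≤ 2 * ((I.n : ℝ) + 1) * Real.log (1 / B.κ) := by
    intro l hl
    have h1 := (B.coer m hm t ht ht' (z l) _ _ _ _ (htest l) (hbas l)).trans (hobj' l hl)
    have h2 : Real.exp (disc (ks l) (us l) / (2 * ((I.n : ℝ) + 1))) ≤ 1 / B.κ := by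
      rw [le_div_iff₀ B.hκ]
      linarith
    have h3 := (Real.le_log_iff_exp_le (by have := B.hκ; positivity)).2 h2
    rw [div_le_iff₀ hn1] at h3
    linarith
  -- subsequences
  obtain ⟨U0, hU0, φ1, hφ1, hlim1⟩ := unitary_subseq (fun l => U (l + L)) (fun l => hU _)
  obtain ⟨q0, hq0, φ2, hφ2, hlim2⟩ := box_subseq 0 (B.Cm * m) (fun l => q (φ1 l + L)) (fun l i => hq1 _ i)
  obtain ⟨a0, ha0, φ3, hφ3, hlim3⟩ := real_subseq (-Real.log ((c + 1) / 2) / B.Cm)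
    (2 * ((I.n : ℝ) + 1) * Real.log (1 / B.κ)) (fun l => disc (ks (φ1 (φ2 l) + L)) (us (φ1 (φ2 l) + L)))
    (fun l => ⟨haS _ (Nat.le_add_left _ _), haL _ (Nat.le_add_left _ _)⟩)
  set ψ : ℕ → ℕ := fun l => φ1 (φ2 (φ3 l)) + L with hψdef
  have hψ : Tendsto ψ atTop atTop := by
    have hmono : StrictMono ψ := fun x y hxy => Nat.add_lt_add_right (hφ1 (hφ2 (hφ3 hxy))) L
    exact hmono.tendsto_atTop
  have hlimU : Tendsto (fun l => U (ψ l)) atTop (𝓝 U0) := hlim1.comp ((hφ2.comp hφ3).tendsto_atTop)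
  have hlimq : Tendsto (fun l => q (ψ l)) atTop (𝓝 q0) := hlim2.comp hφ3.tendsto_atTop
  have hlima : Tendsto (fun l => disc (ks (ψ l)) (us (ψ l))) atTop (𝓝 a0) := hlim3
  have ha0pos : 0 < a0 := lt_of_lt_of_le (div_pos (by linarith) B.hCm) ha0.1
  -- the limit basis
  obtain ⟨be, hbe⟩ := (I.S.isBasis_iff m e).1 he
  obtain ⟨sb, hsb⟩ := unitary_rows_basis be U0 hU0
  have hs : I.S.IsBasis m (fun i => ∑ j, U0 i j • e j) := by
    refine (I.S.isBasis_iff m _).2 ⟨sb, fun i => ?_⟩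
    rw [hsb, Submodule.coe_sum]
    refine Finset.sum_congr rfl fun j _ => ?_
    rw [Submodule.coe_smul, hbe]
  refine ⟨fun i => ∑ j, U0 i j • e j, q0, a0, hs, ?_, fun i => (hq0 i).1, ha0pos, ?_⟩
  · refine ⟨e, U0, fun l => z (ψ l), fun l => U (ψ l), fun l => Gs (ψ l), fun l => ks (ψ l),
      fun l => us (ψ l), he, fun i => rfl, hz.comp hψ, hlimU, fun l => htest _, fun ε hε => ?_⟩
    have hev : ∀ᶠ l in atTop, ∀ i, q0 i - ε < q (ψ l) i := by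
      rw [eventually_all]
      intro i
      exact ((tendsto_pi_nhds.1 hlimq) i).eventually (lt_mem_nhds (by linarith))
    filter_upwards [hev] with l hl i
    refine le_trans ?_ (hq2 (ψ l) i)
    exact mul_le_mul_of_nonneg_right (hl i).le (disc_nonneg _ (htest (ψ l)).2.1)
  · have hPhi : Tendsto (fun l => Phi (m : ℝ) t (disc (ks (ψ l)) (us (ψ l))) (q (ψ l))) atTop
        (𝓝 (Phi (m : ℝ) t a0 q0)) := by
      unfold Phi
      refine Tendsto.div_const (tendsto_finsetSum _ fun i _ => ?_) _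
      refine (Real.continuous_exp.tendsto _).comp ?_
      exact (hlima.div_const t).sub ((hlima.mul ((tendsto_pi_nhds.1 hlimq) i)).div_const _)
    refine le_of_tendsto_of_tendsto' hPhi (hcs.comp hψ) fun l => ?_
    rw [hq3]
    exact hobj (ψ l)

/-- a profile with `Phi ≤ c < 1` is not zero -/
theorem Phi_lt_one_pos {N : ℕ} (hN : 0 < N) {m t a : ℝ} (ht : 0 < t) (ha : 0 < a) {q : Fin N → ℝ}
    (hq : ∀ i, 0 ≤ q i) (h : Phi m t a q < 1) : ∃ i, 0 < q i := by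
  by_contra hcon
  push Not at hcon
  have hq0 : ∀ i, q i = 0 := fun i => le_antisymm (hcon i) (hq i)
  have hNR : (0 : ℝ) < (N : ℝ) := by exact_mod_cast hN
  have h1 : Phi m t a q = Real.exp (a / t) := by
    unfold Phi
    simp only [hq0, mul_zero, zero_div, sub_zero, Finset.sum_const, Finset.card_univ, Fintype.card_fin,
      nsmul_eq_mul]
    field_simp
  rw [h1] at h
  have h2 : 1 ≤ Real.exp (a / t) := Real.one_le_exp (by positivity)
  linarith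

/-- **lower semicontinuity at `x`, with realisation in a cell** -/
theorem Iface.Bounds.lsc (B : I.Bounds) {m : ℕ} (hm : B.m₀ ≤ m) {t : ℝ} (ht : 0 < t) (ht' : t ≤ I.n + 1)
    (z : ℕ → Pt) (hz : Tendsto z atTop (𝓝 I.x)) (Gs : ℕ → GChart I.S I.n) (ks : ℕ → Fin I.n → ℕ)
    (us : ℕ → Fin I.n → ℝ) (ss : ℕ → Fin (I.S.N m) → K) (htest : ∀ l, I.IsTest (z l) (Gs l) (ks l) (us l))
    (hbas : ∀ l, I.S.IsBasis m (ss l)) (cs : ℕ → ℝ) (c : ℝ) (hcs : Tendsto cs atTop (𝓝 c)) (hc : c < 1)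
    (hobj : ∀ l, I.obj m t (Gs l) (ks l) (us l) (ss l) ≤ cs l) :
    ∃ s : Fin (I.S.N m) → K, I.S.IsBasis m s ∧ ∀ 𝒟, I.RL m s 𝒟 →
      ∃ (G : GChart I.S I.n) (k : Fin I.n → ℕ) (o : Fin I.n → Fin (I.S.N m) → ℕ) (u : Fin I.n → ℝ),
        I.IsCell m s 𝒟 G k o ∧ (∀ i, 0 ≤ u i) ∧ u ≠ 0 ∧ I.obj m t G k u s ≤ c := by
  obtain ⟨s, q, a, hs, hlim, hq, ha, hPhi⟩ := B.lsc_extract hm ht ht' z hz Gs ks us ss htest hbas cs c hcs hc hobj
  refine ⟨s, hs, fun 𝒟 hRL => ?_⟩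
  have hN := B.N_pos m hm
  have hm0 : (0 : ℝ) < m := by exact_mod_cast lt_of_lt_of_le B.hm₀ hm
  obtain ⟨G, k, o, u, hcell, hu, hd, hqo⟩ :=
    I.limProfile_cell hlim (Phi_lt_one_pos hN ht ha hq (lt_of_le_of_lt hPhi hc)) hRL
  refine ⟨G, k, o, fun i => a * u i, hcell, fun i => mul_nonneg ha.le (hu i), ?_, ?_⟩
  · intro h0
    have : disc k (fun i => a * u i) = a := by rw [disc_smul, hd, mul_one]
    rw [h0] at this
    simp [disc] at this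
    exact ha.ne this
  · have h1 : I.obj m t G k (fun i => a * u i) s = Phi (m : ℝ) t a (ow o u) :=
      I.obj_cell_Phi t k (fun i => mul_nonneg ha.le (hu i)) hcell.2.2 (by rw [disc_smul, hd, mul_one])
        (fun i => ow_smul o a u i)
    rw [h1]
    exact le_trans (Phi_anti (m : ℝ) t a hm0 ha.le q (ow o u) hqo) hPhi

/-- consequence: no sequence of pairs at points tending to `x` has objectives tending to a limit below `f_{m,t}(x)` -/
theorem Iface.Bounds.lsc_fval (B : I.Bounds) {m : ℕ} (hm : B.m₀ ≤ m) {t : ℝ} (ht : 0 < t) (ht' : t ≤ I.n + 1)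
    (z : ℕ → Pt) (hz : Tendsto z atTop (𝓝 I.x)) (Gs : ℕ → GChart I.S I.n) (ks : ℕ → Fin I.n → ℕ)
    (us : ℕ → Fin I.n → ℝ) (ss : ℕ → Fin (I.S.N m) → K) (htest : ∀ l, I.IsTest (z l) (Gs l) (ks l) (us l))
    (hbas : ∀ l, I.S.IsBasis m (ss l)) (c : ℝ) (hc : c < 1)
    (hobj : ∀ l, I.obj m t (Gs l) (ks l) (us l) (ss l) ≤ c) : I.fval m t I.x ≤ c := by
  obtain ⟨s, hs, h⟩ := B.lsc hm ht ht' z hz Gs ks us ss htest hbas (fun _ => c) c tendsto_const_nhds hc hobj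
  obtain ⟨𝒟, hRL, -⟩ := I.mono' m s hs
  obtain ⟨G, k, o, u, hcell, hu, hu0, hle⟩ := h 𝒟 hRL
  exact le_trans (I.fval_le ⟨hcell.2.1, hu, hu0⟩ hs) hle

/-- **attainment (Proposition 4.4)** -/
theorem Iface.Bounds.attain (B : I.Bounds) {m : ℕ} (hm : B.m₀ ≤ m) {t : ℝ} (ht : B.t₀ ≤ t) (ht' : t ≤ I.n + 1) :
    ∃ s : Fin (I.S.N m) → K, I.S.IsBasis m s ∧ ∀ 𝒟, I.RL m s 𝒟 →
      ∃ (G : GChart I.S I.n) (k : Fin I.n → ℕ) (o : Fin I.n → Fin (I.S.N m) → ℕ) (u : Fin I.n → ℝ),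
        I.IsCell m s 𝒟 G k o ∧ (∀ i, 0 ≤ u i) ∧ u ≠ 0 ∧ I.obj m t G k u s ≤ I.fval m t I.x := by
  have ht0 : 0 < t := lt_of_lt_of_le B.ht₀ ht
  have hex : ∀ l : ℕ, ∃ G k u s, I.IsTest I.x G k u ∧ I.S.IsBasis m s ∧
      I.obj m t G k u s < I.fval m t I.x + 1 / ((l : ℝ) + 1) := fun l =>
    I.exists_obj_lt (lt_add_of_pos_right _ (by positivity))
  choose Gs ks us ss h1 h2 h3 using hex
  refine B.lsc hm ht0 ht' (fun _ => I.x) tendsto_const_nhds Gs ks us ss h1 h2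
    (fun l => I.fval m t I.x + 1 / ((l : ℝ) + 1)) (I.fval m t I.x) ?_ ?_ (fun l => (h3 l).le)
  · have := tendsto_one_div_add_atTop_nhds_zero_nat (𝕜 := ℝ)
    simpa using this.const_add (I.fval m t I.x)
  · have := B.upper m hm t ht ht'
    linarith [B.hδ]

end Claimed.Agent.R242
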