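/-
R242 / Core / S5a : Section 5.2-5.3 of the paper on the contract: the sums `Q_j`, the truncated tangential moment `T_m`,
its lower bound through the slices (5.23).            Architect: helper100.

One chart `G'` (= `G' l` of the field `tan`), old weights `u`, tangential positions `tn : Fin d → Fin n`.
Monomial order: `monoLT u (tanW tn)` (old weighted order, then tangential degree, then lex).
-/
import Mathlib
import Claimed.Agent.R242.Core.S4b
import Claimed.Agent.R242.Cvx.Slices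

set_option autoImplicit false

namespace Claimed.Agent.R242

open Filter Topology Finset

variable {K : Type*} [Field K] [Algebra ℂ K]

section Exp

variable {n d : ℕ}

/-- indicator weights of the tangential coordinates -/
noncomputable def tanW (tn : Fin d → Fin n) (i : Fin n) : ℝ :=
  open Classical in if i ∈ Set.range tn then 1 else 0

/-- the weights `ε^2` on the fibre coordinates -/
noncomputable def fibW (u : Fin n → ℝ) (tn : Fin d → Fin n) (ε : ℝ) (i : Fin n) : ℝ :=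
  open Classical in if u i = 0 ∧ i ∉ Set.range tn then ε ^ 2 else 0

theorem pertW_eq (u : Fin n → ℝ) (tn : Fin d → Fin n) (ε : ℝ) :
    pertW u tn ε = fun i => u i + ε * tanW tn i + fibW u tn ε i := rfl

theorem tanW_nonneg (tn : Fin d → Fin n) (i : Fin n) : 0 ≤ tanW tn i := by
  unfold tanW
  split_ifs <;> norm_num

theorem fibW_nonneg (u : Fin n → ℝ) (tn : Fin d → Fin n) (ε : ℝ) (i : Fin n) : 0 ≤ fibW u tn ε i := by
  unfold fibW
  split_ifs
  · positivity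
  · exact le_rfl

/-- `γ ↦ (p, β)`: `p` = the exponent with the tangential entries erased, `β` = the tangential entries -/
noncomputable def splitExp (tn : Fin d → Fin n) (γ : Fin n →₀ ℕ) : (Fin n →₀ ℕ) × (Fin d → ℕ) :=
  open Classical in (γ.filter (fun i => i ∉ Set.range tn), fun a => γ (tn a))

theorem s5aA_fst_of_not_mem (tn : Fin d → Fin n) (γ : Fin n →₀ ℕ) {i : Fin n} (hi : i ∉ Set.range tn) :
    (splitExp tn γ).1 i = γ i := by
  classical
  exact Finsupp.filter_apply_pos (fun i => i ∉ Set.range tn) γ hi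

theorem s5aA_fst_of_mem (tn : Fin d → Fin n) (γ : Fin n →₀ ℕ) {i : Fin n} (hi : i ∈ Set.range tn) :
    (splitExp tn γ).1 i = 0 := by
  classical
  exact Finsupp.filter_apply_neg (fun i => i ∉ Set.range tn) γ (not_not.2 hi)

theorem splitExp_injective (tn : Fin d → Fin n) : Function.Injective (splitExp tn) := by
  intro γ δ h
  have h2 : (fun a => γ (tn a)) = fun a => δ (tn a) := congrArg Prod.snd h
  ext i
  by_cases hi : i ∈ Set.range tn
  · obtain ⟨a, rfl⟩ := hi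
    exact congrFun h2 a
  · rw [← s5aA_fst_of_not_mem tn γ hi, ← s5aA_fst_of_not_mem tn δ hi, h]

theorem splitExp_add (tn : Fin d → Fin n) (γ δ : Fin n →₀ ℕ) :
    splitExp tn (γ + δ) = ((splitExp tn γ).1 + (splitExp tn δ).1, (splitExp tn γ).2 + (splitExp tn δ).2) := by
  classical
  unfold splitExp
  refine Prod.ext ?_ ?_
  · exact Finsupp.filter_add
  · funext a
    simp

theorem wdeg_splitExp_fst {u : Fin n → ℝ} {tn : Fin d → Fin n} (hu0 : ∀ a, u (tn a) = 0) (γ : Fin n →₀ ℕ) :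
    wdeg u (splitExp tn γ).1 = wdeg u γ := by
  unfold wdeg
  refine Finset.sum_congr rfl fun i _ => ?_
  by_cases hi : i ∈ Set.range tn
  · obtain ⟨a, rfl⟩ := hi
    rw [hu0 a, zero_mul, zero_mul]
  · rw [s5aA_fst_of_not_mem tn γ hi]

theorem wdeg_tanW {tn : Fin d → Fin n} (htn : Function.Injective tn) (γ : Fin n →₀ ℕ) :
    wdeg (tanW tn) γ = ∑ a, ((splitExp tn γ).2 a : ℝ) := by
  classical
  unfold wdeg tanW splitExp
  have h1 : ∑ a, ((γ (tn a) : ℕ) : ℝ) = ∑ i ∈ Finset.univ.image tn, ((γ i : ℕ) : ℝ) :=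
    (Finset.sum_image (f := fun i => ((γ i : ℕ) : ℝ)) fun a _ b _ h => htn h).symm
  rw [h1, ← Finset.sum_filter_add_sum_filter_not Finset.univ (fun i => i ∈ Set.range tn)]
  have h2 : ∑ i ∈ Finset.univ.filter (fun i => ¬ i ∈ Set.range tn),
      (if i ∈ Set.range tn then (1 : ℝ) else 0) * (γ i : ℝ) = 0 :=
    Finset.sum_eq_zero fun i hi => by rw [if_neg (Finset.mem_filter.1 hi).2, zero_mul]
  rw [h2, add_zero]
  have h3 : Finset.univ.filter (fun i => i ∈ Set.range tn) = Finset.univ.image tn := by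
    ext i
    simp
  rw [h3]
  refine Finset.sum_congr rfl fun i hi => ?_
  rw [if_pos (by simpa using hi), one_mul]

theorem mem_pureExp_iff (tn : Fin d → Fin n) (γ : Fin n →₀ ℕ) : γ ∈ pureExp tn ↔ (splitExp tn γ).1 = 0 := by
  unfold pureExp
  constructor
  · intro h
    ext i
    by_cases hi : i ∈ Set.range tn
    · rw [s5aA_fst_of_mem tn γ hi]
      rfl
    · rw [s5aA_fst_of_not_mem tn γ hi]
      exact h i hi
  · intro h i hi
    rw [← s5aA_fst_of_not_mem tn γ hi, h]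
    rfl

theorem splitExp_sum_single {tn : Fin d → Fin n} (htn : Function.Injective tn) (β : Fin d → ℕ) :
    splitExp tn (∑ a, Finsupp.single (tn a) (β a)) = (0, β) := by
  classical
  refine Prod.ext ?_ ?_
  · ext i
    by_cases hi : i ∈ Set.range tn
    · rw [s5aA_fst_of_mem tn _ hi]
      rfl
    · rw [s5aA_fst_of_not_mem tn _ hi, Finsupp.finsetSum_apply]
      refine Finset.sum_eq_zero fun a _ => ?_
      exact Finsupp.single_eq_of_ne fun h => hi ⟨a, h.symm⟩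
  · funext b
    show (∑ a, Finsupp.single (tn a) (β a)) (tn b) = β b
    rw [Finsupp.finsetSum_apply, Finset.sum_eq_single b]
    · exact Finsupp.single_eq_same
    · intro a _ hab
      exact Finsupp.single_eq_of_ne fun h => hab (htn h.symm)
    · intro h
      exact absurd (Finset.mem_univ b) h

end Exp

section Chart

variable {S : SecRing K} {n : ℕ} (G : GChart S n)

/-- `Q_j = ∑_{γ ∈ Γ_j} exp (-ℓ(γ)/m)`  (5.9) -/
noncomputable def GChart.Qsum (u w₂ : Fin n → ℝ) (m : ℝ) (j : ℕ) : ℝ :=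
  ∑ γ ∈ G.iniFin u w₂ j, Real.exp (-(wdeg u γ) / m)

/-- the tangential moment (5.14), with the tangential degree truncated at `Lam` -/
noncomputable def GChart.Tmom (u w₂ : Fin n → ℝ) (m : ℕ) (Lam : ℝ) : ℝ :=
  (∑ γ ∈ G.iniFin u w₂ m, Real.exp (-(wdeg u γ) / m) * min (wdeg w₂ γ) Lam) / (m * G.Qsum u w₂ m m)

/-- `Γ_j` as a set of pairs `(p, β)` -/
noncomputable def GChart.Gam (u : Fin n → ℝ) {d : ℕ} (tn : Fin d → Fin n) (j : ℕ) :
    Finset ((Fin n →₀ ℕ) × (Fin d → ℕ)) :=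
  (G.iniFin u (tanW tn) j).image (splitExp tn)

theorem GChart.Qsum_nonneg (u w₂ : Fin n → ℝ) (m : ℝ) (j : ℕ) : 0 ≤ G.Qsum u w₂ m j := by
  exact Finset.sum_nonneg fun γ _ => (Real.exp_pos _).le

theorem GChart.Qsum_pos {u w₂ : Fin n → ℝ} (hu : ∀ i, 0 ≤ u i) (h₂ : ∀ i, 0 ≤ w₂ i) (m : ℝ) {j : ℕ} (hN : 0 < S.N j) :
    0 < G.Qsum u w₂ m j := by
  refine Finset.sum_pos (fun γ _ => Real.exp_pos _) ?_
  rw [← Finset.card_pos, G.iniFin_card hu h₂ j]
  exact hN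

theorem GChart.Gam_card {u : Fin n → ℝ} (hu : ∀ i, 0 ≤ u i) {d : ℕ} (tn : Fin d → Fin n) (j : ℕ) :
    (G.Gam u tn j).card = S.N j := by
  unfold GChart.Gam
  rw [Finset.card_image_of_injective _ (splitExp_injective tn), G.iniFin_card hu (tanW_nonneg tn) j]

/-- sums over `Γ_j` -/
theorem GChart.sum_Gam (u : Fin n → ℝ) {d : ℕ} (tn : Fin d → Fin n) (j : ℕ)
    (φ : (Fin n →₀ ℕ) × (Fin d → ℕ) → ℝ) :
    ∑ x ∈ G.Gam u tn j, φ x = ∑ γ ∈ G.iniFin u (tanW tn) j, φ (splitExp tn γ) := by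
  unfold GChart.Gam
  exact Finset.sum_image fun a _ b _ h => splitExp_injective tn h

/-- the action of the pure tangential initials on the slices (5.7) -/
theorem GChart.Gam_act {u : Fin n → ℝ} (hu : ∀ i, 0 ≤ u i) {d : ℕ} (tn : Fin d → Fin n) (i j : ℕ)
    (p : Fin n →₀ ℕ) (β β' : Fin d → ℕ) (h : (p, β) ∈ G.Gam u tn i) (h' : β' ∈ slice (G.Gam u tn j) 0) :
    (p, β + β') ∈ G.Gam u tn (i + j) := by
  rw [mem_slice_iff] at h'
  unfold GChart.Gam at h h' ⊢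
  obtain ⟨γ, hγ, e1⟩ := Finset.mem_image.1 h
  obtain ⟨δ, hδ, e2⟩ := Finset.mem_image.1 h'
  rw [G.mem_iniFin hu (tanW_nonneg tn)] at hγ hδ
  refine Finset.mem_image.2 ⟨γ + δ, ?_, ?_⟩
  · rw [G.mem_iniFin hu (tanW_nonneg tn)]
    exact G.ini_add hu (tanW_nonneg tn) hγ hδ
  · rw [splitExp_add, e1, e2, add_zero]

/-- the cube (5.16), in degree `k d + k` -/
theorem GChart.Gam_cube {u : Fin n → ℝ} (hu : ∀ i, 0 ≤ u i) {d : ℕ} {tn : Fin d → Fin n}
    (htn : Function.Injective tn) {k : ℕ}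
    (hσ : ∃ σ₀ ∈ S.R k, MvPowerSeries.coeff 0 (G.T k σ₀) ≠ 0 ∧
      ∀ a : Fin d, ∃ σ ∈ S.R k, G.T k σ = G.T k σ₀ * MvPowerSeries.X (tn a)) :
    cube01 d ⊆ slice (G.Gam u tn (k * d + k)) 0 := by
  intro β hβ
  obtain ⟨σ₀, hσ₀, hσ₀', hσa⟩ := hσ
  have hβ1 : ∀ a, β a ≤ 1 := by
    intro a
    have := Fintype.mem_piFinset.1 hβ a
    rcases Finset.mem_insert.1 this with h | h
    · omega
    · rw [Finset.mem_singleton.1 h]
  have hsum : ∑ a, β a ≤ d := by
    calc ∑ a, β a ≤ ∑ _a : Fin d, 1 := Finset.sum_le_sum fun a _ => hβ1 a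
      _ = d := by simp
  obtain ⟨r, hr, V, hV, hT⟩ := G.exists_monomial_section tn hσ₀ hσ₀' hσa hσ₀ hσ₀' d β hsum
  have hini := isIni_unit_mul_monomial (w₁ := u) (w₂ := tanW tn) hu (tanW_nonneg tn) hV
    (∑ a, Finsupp.single (tn a) (β a))
  rw [← hT] at hini
  rw [mem_slice_iff]
  unfold GChart.Gam
  refine Finset.mem_image.2 ⟨∑ a, Finsupp.single (tn a) (β a), ?_, splitExp_sum_single htn β⟩
  rw [G.mem_iniFin hu (tanW_nonneg tn), G.mem_ini hu (tanW_nonneg tn)]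
  exact ⟨r, hr, hini⟩

/-- `# G_0(h) ≥ I_W(h)` -/
theorem GChart.resRank_le {u : Fin n → ℝ} (hu : ∀ i, 0 ≤ u i) {d : ℕ} {tn : Fin d → Fin n}
    (htn : Function.Injective tn) (hu0 : ∀ a, u (tn a) = 0)
    (hres : ∀ j s γ, s ∈ S.R j → MvPowerSeries.coeff γ (G.T j s) ≠ 0 → (∀ i, u i ≠ 0 → γ i = 0) → γ ∈ pureExp tn)
    (h : ℕ) : G.resRank tn h ≤ (slice (G.Gam u tn h) 0).card := by
  have : FiniteDimensional ℂ (S.R h) := S.fin h
  have : IsWellOrder (Fin n →₀ ℕ) (monoLT u (tanW tn)) := monoLT_isWellOrder hu (tanW_nonneg tn)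
  have key := iniSet_inter_ncard_ge (k := ℂ) (V := S.R h) (monoLT u (tanW tn)) (G.lin h) (pureExp tn) (by
    rintro v γ hγ ⟨δ, hδ, hδ0⟩
    have hγ' : IsIni (monoLT u (tanW tn)) (G.T h (v : K) : (Fin n →₀ ℕ) → ℂ) γ := hγ
    have hwδ : wdeg u δ = 0 := by
      unfold wdeg
      refine Finset.sum_eq_zero fun i _ => ?_
      by_cases hi : i ∈ Set.range tn
      · obtain ⟨a, rfl⟩ := hi
        rw [hu0 a, zero_mul]
      · rw [hδ i hi]; simp
    have hle : wdeg u γ ≤ wdeg u δ := by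
      by_contra hlt
      exact hγ.2 δ hδ0 (Or.inl (not_le.1 hlt))
    have hwγ : wdeg u γ = 0 := le_antisymm (hle.trans hwδ.le) (wdeg_nonneg hu γ)
    refine hres h v γ v.2 hγ'.1 fun i hi => ?_
    unfold wdeg at hwγ
    have := (Finset.sum_eq_zero_iff_of_nonneg
      (fun i _ => mul_nonneg (hu i) (Nat.cast_nonneg (γ i)))).1 hwγ i (Finset.mem_univ i)
    rcases mul_eq_zero.1 this with h1 | h1
    · exact absurd h1 hi
    · exact_mod_cast h1)
  refine le_trans key ?_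
  rw [← Set.ncard_coe_finset]
  refine Set.ncard_le_ncard_of_injOn (fun γ => (splitExp tn γ).2) ?_ ?_ (Finset.finite_toSet _)
  · rintro γ ⟨hγ1, hγ2⟩
    rw [Finset.mem_coe, mem_slice_iff]
    unfold GChart.Gam
    refine Finset.mem_image.2 ⟨γ, (G.mem_iniFin hu (tanW_nonneg tn)).2 hγ1, ?_⟩
    exact Prod.ext ((mem_pureExp_iff tn γ).1 hγ2) rfl
  · rintro γ ⟨-, hγ2⟩ δ ⟨-, hδ2⟩ he
    apply splitExp_injective tn
    exact Prod.ext (((mem_pureExp_iff tn γ).1 hγ2).trans ((mem_pureExp_iff tn δ).1 hδ2).symm) he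

end Chart

section Moment

variable {Pt : Type*} [TopologicalSpace Pt] (I : Iface K Pt)

/-- the properties of one chart `G'` of the field `tan` that do not involve the old chart -/
def Iface.TanChart (u : Fin I.n → ℝ) {d : ℕ} (tn : Fin d → Fin I.n) (G' : GChart I.S I.n) : Prop :=
  (∀ j s γ, s ∈ I.S.R j → MvPowerSeries.coeff γ (G'.T j s) ≠ 0 → (∀ i, u i ≠ 0 → γ i = 0) → γ ∈ pureExp tn) ∧
  (∀ h, I.Hres d ≤ h → (h : ℝ) - I.Cres d ≤ ((d.factorial : ℝ) * G'.resRank tn h) ^ (1 / (d : ℝ))) ∧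
  (∃ σ₀ ∈ I.S.R I.k₀, MvPowerSeries.coeff 0 (G'.T I.k₀ σ₀) ≠ 0 ∧
    ∀ a : Fin d, ∃ σ ∈ I.S.R I.k₀, G'.T I.k₀ σ = G'.T I.k₀ σ₀ * MvPowerSeries.X (tn a))

/-- the constant `C'_d` of (5.18) -/
noncomputable def Iface.Cch (d : ℕ) : ℝ := I.Cres d + ((I.k₀ * d + I.k₀ : ℕ) : ℝ)

/-- the threshold for the increments of a chain of degrees -/
noncomputable def Iface.Hch (d : ℕ) : ℕ :=
  max (max (I.Hres d) (⌊I.Cres d⌋₊ + 1) + (I.k₀ * d + I.k₀)) ⌈I.Cch d⌉₊

/-- **(5.23)**: the chain inequality for the truncated moment, with constants depending on `d` only -/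
theorem Iface.moment_chain {d : ℕ} (hd : 1 ≤ d) {u : Fin I.n → ℝ} (hu : ∀ i, 0 ≤ u i) {tn : Fin d → Fin I.n}
    (htn : Function.Injective tn) (hu0 : ∀ a, u (tn a) = 0) {G' : GChart I.S I.n} (hG' : I.TanChart u tn G')
    {m : ℕ} (hm : 1 ≤ m) (hN : 0 < I.S.N m) {Lam : ℝ}
    (hLam : ((d.factorial : ℝ) * I.S.N m) ^ (1 / (d : ℝ)) ≤ Lam) (L : ℕ) (j : ℕ → ℕ) (hjL : j L = m)
    (hinc : ∀ i < L, j i + I.Hch d ≤ j (i + 1)) :
    (d : ℝ) * ∑ i ∈ Finset.range L, ((j (i + 1) : ℝ) - j i - I.Cch d) * G'.Qsum u (tanW tn) m (j i)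
      ≤ (G'.Tmom u (tanW tn) m Lam + d / m) * (m * G'.Qsum u (tanW tn) m m) := by
  classical
  have hd0 : (0 : ℝ) < (d : ℝ) := by exact_mod_cast hd
  have hinv : (0 : ℝ) < 1 / (d : ℝ) := by positivity
  have hm0 : (0 : ℝ) < (m : ℝ) := by exact_mod_cast hm
  have hf : (0 : ℝ) < (d.factorial : ℝ) := by exact_mod_cast d.factorial_pos
  have hgrow : ∀ h, max (I.Hres d) (⌊I.Cres d⌋₊ + 1) ≤ h → (h : ℝ) - I.Cres d ≤
      ((d.factorial : ℝ) * (slice (G'.Gam u tn h) 0).card) ^ (1 / (d : ℝ)) := by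
    intro h hh
    refine (hG'.2.1 h ((le_max_left _ _).trans hh)).trans ?_
    refine Real.rpow_le_rpow (by positivity) ?_ hinv.le
    refine mul_le_mul_of_nonneg_left ?_ hf.le
    exact_mod_cast G'.resRank_le hu htn hu0 hG'.1 h
  have hne : ∀ h, max (I.Hres d) (⌊I.Cres d⌋₊ + 1) ≤ h → (slice (G'.Gam u tn h) 0).Nonempty := by
    intro h hh
    have h1 := hgrow h hh
    have h2 : I.Cres d < (h : ℝ) := by
      have h3 : ⌊I.Cres d⌋₊ + 1 ≤ h := (le_max_right _ _).trans hh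
      have h4 : I.Cres d < (⌊I.Cres d⌋₊ : ℝ) + 1 := Nat.lt_floor_add_one _
      have h5 : ((⌊I.Cres d⌋₊ : ℝ) + 1) ≤ (h : ℝ) := by exact_mod_cast h3
      linarith
    by_contra hcon
    rw [Finset.not_nonempty_iff_eq_empty] at hcon
    rw [hcon, Finset.card_empty, Nat.cast_zero, mul_zero, Real.zero_rpow hinv.ne'] at h1
    linarith
  have hinc1 : ∀ i < L, j i + (max (I.Hres d) (⌊I.Cres d⌋₊ + 1) + (I.k₀ * d + I.k₀)) ≤ j (i + 1) := by
    intro i hi
    have h1 := hinc i hi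
    have h2 : max (I.Hres d) (⌊I.Cres d⌋₊ + 1) + (I.k₀ * d + I.k₀) ≤ I.Hch d := le_max_left _ _
    omega
  have hinc2 : ∀ i < L, I.Cres d + ((I.k₀ * d + I.k₀ : ℕ) : ℝ) ≤ (j (i + 1) : ℝ) - j i := by
    intro i hi
    have h1 := hinc i hi
    have h2 : ⌈I.Cch d⌉₊ ≤ I.Hch d := le_max_right _ _
    have h3 : I.Cch d ≤ (⌈I.Cch d⌉₊ : ℝ) := Nat.le_ceil _
    have h4 : ((j i : ℝ) + (⌈I.Cch d⌉₊ : ℝ)) ≤ (j (i + 1) : ℝ) := by
      exact_mod_cast (by omega : j i + ⌈I.Cch d⌉₊ ≤ j (i + 1))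
    have h5 : I.Cch d = I.Cres d + ((I.k₀ * d + I.k₀ : ℕ) : ℝ) := rfl
    linarith
  have hLam' : ((d.factorial : ℝ) * (G'.Gam u tn (j L)).card) ^ (1 / (d : ℝ)) ≤ Lam := by
    rw [hjL, G'.Gam_card hu tn m]
    exact hLam
  have key := slice_moment d hd (fun p : Fin I.n →₀ ℕ => Real.exp (-(wdeg u p) / m)) (fun p => (Real.exp_pos _).le)
    (fun h => G'.Gam u tn h) (fun h => slice (G'.Gam u tn h) 0) (G'.Gam_act hu tn) (I.k₀ * d + I.k₀)
    (G'.Gam_cube hu htn hG'.2.2) (I.Cres d) (max (I.Hres d) (⌊I.Cres d⌋₊ + 1)) hgrow hne L j hinc1 hinc2 Lam hLam'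
  have hQ : ∀ h, ∑ x ∈ G'.Gam u tn h, Real.exp (-(wdeg u x.1) / m) = G'.Qsum u (tanW tn) m h := by
    intro h
    rw [G'.sum_Gam u tn h (fun x => Real.exp (-(wdeg u x.1) / m))]
    unfold GChart.Qsum
    refine Finset.sum_congr rfl fun γ _ => ?_
    rw [wdeg_splitExp_fst hu0]
  have hQpos : 0 < G'.Qsum u (tanW tn) m m := G'.Qsum_pos hu (tanW_nonneg tn) m hN
  have hR : ∑ x ∈ G'.Gam u tn (j L), Real.exp (-(wdeg u x.1) / m) * (min (∑ i, (x.2 i : ℝ)) Lam + d) =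
      (G'.Tmom u (tanW tn) m Lam + d / m) * (m * G'.Qsum u (tanW tn) m m) := by
    rw [hjL, G'.sum_Gam u tn m (fun x => Real.exp (-(wdeg u x.1) / m) * (min (∑ i, (x.2 i : ℝ)) Lam + d))]
    have h1 : ∀ γ ∈ G'.iniFin u (tanW tn) m,
        Real.exp (-(wdeg u (splitExp tn γ).1) / m) * (min (∑ i, ((splitExp tn γ).2 i : ℝ)) Lam + d) =
        Real.exp (-(wdeg u γ) / m) * min (wdeg (tanW tn) γ) Lam + d * Real.exp (-(wdeg u γ) / m) := by
      intro γ _
      rw [wdeg_splitExp_fst hu0, wdeg_tanW htn]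
      ring
    rw [Finset.sum_congr rfl h1, Finset.sum_add_distrib, ← Finset.mul_sum]
    have h2 : ∑ γ ∈ G'.iniFin u (tanW tn) m, Real.exp (-(wdeg u γ) / m) = G'.Qsum u (tanW tn) m m := rfl
    rw [h2]
    unfold GChart.Tmom
    have h3 : (m : ℝ) * G'.Qsum u (tanW tn) m m ≠ 0 := (mul_pos hm0 hQpos).ne'
    rw [add_mul, div_mul_cancel₀ _ h3]
    field_simp
  simp only [hQ] at key
  rw [hR] at key
  exact key

end Moment

end Claimed.Agent.R242
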