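/-
R242 / Core / S5b : Section 5.2 (first variation, upper bound of the tangential moment) and 5.4 (limiting contradiction) of the paper on
the contract.   Output: `Iface.Bounds.point_center` (Proposition 5.1).          Architect: helper100.
-/
import Mathlib
import Claimed.Agent.R242.Core.S5a

set_option autoImplicit false

namespace Claimed.Agent.R242

open Filter Topology Finset

variable {K : Type*} [Field K] [Algebra ℂ K] {Pt : Type*} [TopologicalSpace Pt] (I : Iface K Pt)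

/-- objective of a multiple `c u` of a test in degree `j`, with a basis with distinct initials in a chart `G'` that computes the same
valuation -/
theorem Iface.obj_iniBasis_eq {t c : ℝ} (hc : 0 < c) {G G' : GChart I.S I.n} (k : Fin I.n → ℕ) {u w₂ : Fin I.n → ℝ}
    (hu : ∀ i, 0 ≤ u i) (hw₂ : ∀ i, 0 ≤ w₂ i)
    (hord : ∀ j s, s ∈ I.S.R j → wOrd u (G'.T j s) = wOrd u (G.T j s)) {j : ℕ} {s : Fin (I.S.N j) → K}
    {g : Fin (I.S.N j) → (Fin I.n →₀ ℕ)} (h : IniBasis G' u w₂ j s g) :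
    I.obj j t G k (fun i => c * u i) s
      = Real.exp (c * disc k u / t) * (∑ γ ∈ G'.iniFin u w₂ j, Real.exp (-(c * wdeg u γ) / j)) / I.S.N j := by
  unfold Iface.obj objF
  congr 1
  rw [← IniBasis.sum_eq G' hu hw₂ h (fun γ => Real.exp (-(c * wdeg u γ) / j)), Finset.mul_sum]
  refine Finset.sum_congr rfl fun i _ => ?_
  beta_reduce
  rw [disc_smul, wOrd_scale hu hc.le, ← hord j (s i) (h.1.1 i), IniBasis.wOrd_eq G' hu hw₂ h i, ← Real.exp_add]
  congr 1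
  ring

/-- (5.25) -/
theorem Iface.Qsum_ge {t : ℝ} {G G' : GChart I.S I.n} {k : Fin I.n → ℕ} {u w₂ : Fin I.n → ℝ}
    (htest : I.IsTest I.x G k u) (hw₂ : ∀ i, 0 ≤ w₂ i)
    (hord : ∀ j s, s ∈ I.S.R j → wOrd u (G'.T j s) = wOrd u (G.T j s)) {m j : ℕ} (hm : 1 ≤ m) (hj : 1 ≤ j) :
    (I.S.N j : ℝ) * I.fval j t I.x * Real.exp (-((j : ℝ) * disc k u) / (m * t)) ≤ G'.Qsum u w₂ m j := by
  have hu := htest.2.1
  rcases Nat.eq_zero_or_pos (I.S.N j) with hN | hN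
  · rw [hN]
    simp only [Nat.cast_zero, zero_mul]
    exact G'.Qsum_nonneg u w₂ m j
  have hm0 : (0 : ℝ) < m := by exact_mod_cast hm
  have hj0 : (0 : ℝ) < j := by exact_mod_cast hj
  have hN0 : (0 : ℝ) < I.S.N j := by exact_mod_cast hN
  have hc : (0 : ℝ) < (j : ℝ) / m := div_pos hj0 hm0
  obtain ⟨s, g, hsg⟩ := G'.exists_iniBasis hu hw₂ j
  have h1 := I.fval_le (t := t) (htest.smul I hc) hsg.1
  rw [I.obj_iniBasis_eq hc k hu hw₂ hord hsg] at h1
  have h2 : ∑ γ ∈ G'.iniFin u w₂ j, Real.exp (-((j : ℝ) / m * wdeg u γ) / j) = G'.Qsum u w₂ m j := by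
    unfold GChart.Qsum
    refine Finset.sum_congr rfl fun γ _ => ?_
    congr 1
    field_simp
  have h3 : (j : ℝ) / m * disc k u / t = (j : ℝ) * disc k u / (m * t) := by
    rw [div_mul_eq_mul_div, div_div]
  rw [h2, h3, le_div_iff₀ hN0] at h1
  have h4 : Real.exp (-((j : ℝ) * disc k u) / (m * t)) * Real.exp ((j : ℝ) * disc k u / (m * t)) = 1 := by
    rw [← Real.exp_add, neg_div, neg_add_cancel, Real.exp_zero]
  calc (I.S.N j : ℝ) * I.fval j t I.x * Real.exp (-((j : ℝ) * disc k u) / (m * t))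
      = (I.fval j t I.x * I.S.N j) * Real.exp (-((j : ℝ) * disc k u) / (m * t)) := by ring
    _ ≤ (Real.exp ((j : ℝ) * disc k u / (m * t)) * G'.Qsum u w₂ m j)
          * Real.exp (-((j : ℝ) * disc k u) / (m * t)) :=
        mul_le_mul_of_nonneg_right h1 (Real.exp_pos _).le
    _ = (Real.exp (-((j : ℝ) * disc k u) / (m * t)) * Real.exp ((j : ℝ) * disc k u / (m * t)))
          * G'.Qsum u w₂ m j := by ring
    _ = G'.Qsum u w₂ m j := by rw [h4, one_mul]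

/-- (5.10) -/
theorem Iface.Qsum_eq {t : ℝ} {G G' : GChart I.S I.n} {k : Fin I.n → ℕ} {u w₂ : Fin I.n → ℝ}
    (htest : I.IsTest I.x G k u) (hw₂ : ∀ i, 0 ≤ w₂ i)
    (hord : ∀ j s, s ∈ I.S.R j → wOrd u (G'.T j s) = wOrd u (G.T j s)) {m : ℕ} (hm : 1 ≤ m) (hN : 0 < I.S.N m)
    {s : Fin (I.S.N m) → K} (hs : I.S.IsBasis m s) (hmin : I.obj m t G k u s ≤ I.fval m t I.x) :
    G'.Qsum u w₂ m m = (I.S.N m : ℝ) * I.fval m t I.x * Real.exp (-(disc k u) / t) := by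
  have hu := htest.2.1
  have hm0 : (0 : ℝ) < m := by exact_mod_cast hm
  have hN0 : (0 : ℝ) < I.S.N m := by exact_mod_cast hN
  refine le_antisymm ?_ ?_
  · obtain ⟨s', g, hsg⟩ := G'.exists_iniBasis hu hw₂ m
    have h1 : I.obj m t G k u s' ≤ I.obj m t G k u s := by
      unfold Iface.obj objF
      refine div_le_div_of_nonneg_right ?_ hN0.le
      have hφ : Antitone fun x : ℝ => Real.exp (disc k u / t - x / m) := by
        intro a b hab
        refine Real.exp_le_exp.2 ?_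
        have : a / m ≤ b / m := div_le_div_of_nonneg_right hab hm0.le
        linarith
      have h2 := IniBasis.sum_le G' hu hw₂ hsg hs _ hφ
      simp only [hord m _ (hsg.1.1 _), hord m _ (hs.1 _)] at h2
      exact h2
    have h3 := I.obj_iniBasis_eq (t := t) one_pos k hu hw₂ hord hsg
    simp only [one_mul] at h3
    have h4 : I.obj m t G k u s' ≤ I.fval m t I.x := h1.trans hmin
    rw [h3, div_le_iff₀ hN0] at h4
    have h5 : Real.exp (-(disc k u) / t) * Real.exp (disc k u / t) = 1 := by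
      rw [← Real.exp_add, neg_div, neg_add_cancel, Real.exp_zero]
    have h6 : ∑ γ ∈ G'.iniFin u w₂ m, Real.exp (-wdeg u γ / m) = G'.Qsum u w₂ m m := rfl
    rw [h6] at h4
    calc G'.Qsum u w₂ m m
        = (Real.exp (-(disc k u) / t) * Real.exp (disc k u / t)) * G'.Qsum u w₂ m m := by rw [h5, one_mul]
      _ = (Real.exp (disc k u / t) * G'.Qsum u w₂ m m) * Real.exp (-(disc k u) / t) := by ring
      _ ≤ (I.fval m t I.x * I.S.N m) * Real.exp (-(disc k u) / t) :=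
          mul_le_mul_of_nonneg_right h4 (Real.exp_pos _).le
      _ = (I.S.N m : ℝ) * I.fval m t I.x * Real.exp (-(disc k u) / t) := by ring
  · have h1 := I.Qsum_ge (t := t) htest hw₂ hord hm hm
    have h2 : -((m : ℝ) * disc k u) / (m * t) = -(disc k u) / t := by
      rw [← mul_neg, mul_div_mul_left _ _ hm0.ne']
    rw [h2] at h1
    exact h1

/-- objective of the perturbed test (5.11), (5.12): `ℓ_i = wdeg u (g i)`, `τ_i = min (tangential degree of g i) Lam`, `ε Lam ≤ gap` -/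
theorem Iface.obj_pert_le {m : ℕ} (hm : 1 ≤ m) {t : ℝ} (ht : 0 < t) {G' : GChart I.S I.n} {k' : Fin I.n → ℕ}
    {u : Fin I.n → ℝ} (hu : ∀ i, 0 ≤ u i) {d : ℕ} {tn : Fin d → Fin I.n} (htn : Function.Injective tn)
    (hu0 : ∀ a, u (tn a) = 0) (hk' : ∀ i, u i = 0 → k' i = 0) {s : Fin (I.S.N m) → K}
    {g : Fin (I.S.N m) → (Fin I.n →₀ ℕ)} (h : IniBasis G' u (tanW tn) m s g) {gap Lam ε : ℝ}
    (hgap : ∀ i (δ : Fin I.n →₀ ℕ), wdeg u (g i) < wdeg u δ → wdeg u (g i) + gap ≤ wdeg u δ) (hε : 0 ≤ ε)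
    (hεL : ε * Lam ≤ gap) :
    I.obj m t G' k' (pertW u tn ε) s ≤
      Real.exp (disc k' u / t) *
        (Real.exp ((d * ε + ((Finset.univ.filter fun i : Fin I.n => u i = 0 ∧ i ∉ Set.range tn).card : ℝ) * ε ^ 2) / t) *
          ∑ i, Real.exp (-(wdeg u (g i) + ε * min (wdeg (tanW tn) (g i)) Lam) / m)) / I.S.N m := by
  have hm0 : (0 : ℝ) < m := by exact_mod_cast hm
  unfold Iface.obj objF
  refine div_le_div_of_nonneg_right ?_ (Nat.cast_nonneg _)
  rw [Finset.mul_sum, Finset.mul_sum]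
  refine Finset.sum_le_sum fun i _ => ?_
  rw [← Real.exp_add, ← Real.exp_add, Real.exp_le_exp, disc_pertW k' u tn htn hu0 hk' ε]
  have h1 : wdeg u (g i) + min (ε * wdeg (tanW tn) (g i)) gap ≤ wOrd (pertW u tn ε) (G'.T m (s i)) := by
    rw [pertW_eq]
    exact wOrd_perturb hu (tanW_nonneg tn) (fibW_nonneg u tn ε) (h.2.2 i) (hgap i) hε
  have h2 : ε * min (wdeg (tanW tn) (g i)) Lam ≤ min (ε * wdeg (tanW tn) (g i)) gap := by
    refine le_min ?_ ?_
    · exact mul_le_mul_of_nonneg_left (min_le_left _ _) hε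
    · exact (mul_le_mul_of_nonneg_left (min_le_right _ _) hε).trans hεL
  have h3 : (wdeg u (g i) + ε * min (wdeg (tanW tn) (g i)) Lam) / m
      ≤ wOrd (pertW u tn ε) (G'.T m (s i)) / m :=
    div_le_div_of_nonneg_right (by linarith) hm0.le
  have e1 : -(wdeg u (g i) + ε * min (wdeg (tanW tn) (g i)) Lam) / m
      = -((wdeg u (g i) + ε * min (wdeg (tanW tn) (g i)) Lam) / m) := by ring
  rw [e1]
  have e2 : (disc k' u + d * ε
      + ((Finset.univ.filter fun i : Fin I.n => u i = 0 ∧ i ∉ Set.range tn).card : ℝ) * ε ^ 2) / t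
      = disc k' u / t + (d * ε
        + ((Finset.univ.filter fun i : Fin I.n => u i = 0 ∧ i ∉ Set.range tn).card : ℝ) * ε ^ 2) / t := by
    ring
  rw [e2]
  linarith

variable {I}

/-- the objective depends on the chart only through the valuation -/
theorem s5b_obj_congr {m : ℕ} {t : ℝ} {G G' : GChart I.S I.n} {k k' : Fin I.n → ℕ} {u : Fin I.n → ℝ}
    (hk : disc k' u = disc k u)
    (hord : ∀ s, s ∈ I.S.R m → wOrd u (G'.T m s) = wOrd u (G.T m s)) {s : Fin (I.S.N m) → K}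
    (hs : I.S.IsBasis m s) : I.obj m t G' k' u s = I.obj m t G k u s := by
  unfold Iface.obj objF
  rw [hk]
  congr 1
  exact Finset.sum_congr rfl fun i _ => by beta_reduce; rw [hord _ (hs.1 i)]

/-- **(5.14)**: upper bound of the truncated tangential moment of a minimizer, in one of the charts `G' l`
(first variation, uniform in `l`, + lower semicontinuity at `x`). -/
theorem Iface.Bounds.moment_upper (B : I.Bounds) {m : ℕ} (hm : B.m₀ ≤ m) {t : ℝ} (ht : B.t₀ ≤ t) (ht' : t ≤ I.n + 1)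
    {G : GChart I.S I.n} {k : Fin I.n → ℕ} {u : Fin I.n → ℝ} {s : Fin (I.S.N m) → K} (htest : I.IsTest I.x G k u)
    (hs : I.S.IsBasis m s) (hmin : I.obj m t G k u s ≤ I.fval m t I.x) {d : ℕ} {tn : Fin d → Fin I.n}
    (htn : Function.Injective tn) (hu0 : ∀ a, u (tn a) = 0) {k' : Fin I.n → ℕ} (hk1 : ∀ i, u i ≠ 0 → k' i = k i)
    (hk2 : ∀ i, u i = 0 → k' i = 0) {y : ℕ → Pt} (hy : Tendsto y atTop (𝓝 I.x)) {G' : ℕ → GChart I.S I.n}
    (hTC : ∀ l, I.TC (y l) (G' l) k')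
    (hord : ∀ l j s, s ∈ I.S.R j → wOrd u ((G' l).T j s) = wOrd u (G.T j s))
    {Lam : ℝ} (hLam : 0 < Lam) {θ : ℝ} (hθ : (d : ℝ) / t < θ) :
    ∃ l, (G' l).Tmom u (tanW tn) m Lam < θ := by
  by_contra hcon
  push Not at hcon
  have ht0 : 0 < t := lt_of_lt_of_le B.ht₀ ht
  have hm1 : 1 ≤ m := le_trans B.hm₀ hm
  have hm0 : (0 : ℝ) < m := by exact_mod_cast hm1
  have hN := B.N_pos m hm
  have hN0 : (0 : ℝ) < I.S.N m := by exact_mod_cast hN
  have hu := htest.2.1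
  have hw := tanW_nonneg tn
  have hdisc : disc k' u = disc k u := disc_congr hk1
  -- bases with distinct initials
  have hex : ∀ l, ∃ s g, IniBasis (G' l) u (tanW tn) m s g := fun l => (G' l).exists_iniBasis hu hw m
  choose ss gs hini using hex
  -- bound of the old orders
  have hB0 : ∀ l i, wdeg u (gs l i) ≤ disc k u * (B.Cm * m) := by
    intro l i
    rw [← IniBasis.wOrd_eq (G' l) hu hw (hini l) i, hord l m _ ((hini l).1.1 i)]
    exact I.val_le_mult B.mult htest hm1 ((hini l).1.1 i) ((hini l).1.ne_zero i)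
  obtain ⟨gap, hgap0, hgap⟩ := wdeg_gap hu (disc k u * (B.Cm * m))
  obtain ⟨ε, ρ, hε0, hεmax, hρ0, hρ1, hfv⟩ := first_variation (d : ℝ)
    ((Finset.univ.filter fun i : Fin I.n => u i = 0 ∧ i ∉ Set.range tn).card : ℝ) t m Lam θ (gap / Lam)
    (Nat.cast_nonneg _) (Nat.cast_nonneg _) ht0 hm0 hLam (div_pos hgap0 hLam) hθ
  have hεL : ε * Lam ≤ gap := by
    rwa [le_div_iff₀ hLam] at hεmax
  have hfv0 : 0 ≤ I.fval m t I.x := I.fval_nonneg m t I.x
  have hobj : ∀ l, I.obj m t (G' l) k' (pertW u tn ε) (ss l) ≤ ρ * I.fval m t I.x := by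
    intro l
    have h1 := I.obj_pert_le hm1 ht0 hu htn hu0 hk2 (hini l) (gap := gap) (Lam := Lam) (ε := ε)
      (fun i δ hlt => hgap _ _ (hB0 l i) hlt) hε0.le hεL
    have hQ : (G' l).Qsum u (tanW tn) m m = ∑ i, Real.exp (-(wdeg u (gs l i)) / m) :=
      (IniBasis.sum_eq (G' l) hu hw (hini l) fun γ => Real.exp (-(wdeg u γ) / m)).symm
    have hQpos : 0 < (G' l).Qsum u (tanW tn) m m := (G' l).Qsum_pos hu hw m hN
    have h2 : θ * (m * ∑ i, Real.exp (-(wdeg u (gs l i)) / m))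
        ≤ ∑ i, Real.exp (-(wdeg u (gs l i)) / m) * min (wdeg (tanW tn) (gs l i)) Lam := by
      have h3 := hcon l
      unfold GChart.Tmom at h3
      rw [le_div_iff₀ (mul_pos hm0 hQpos), hQ] at h3
      rw [IniBasis.sum_eq (G' l) hu hw (hini l)
        fun γ => Real.exp (-(wdeg u γ) / m) * min (wdeg (tanW tn) γ) Lam]
      exact h3
    have h4 := hfv (I.S.N m) (fun i => wdeg u (gs l i)) (fun i => min (wdeg (tanW tn) (gs l i)) Lam)
      (fun i => ⟨le_min (wdeg_nonneg hw _) hLam.le, min_le_right _ _⟩) h2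
    have h5 : I.obj m t G k u (ss l)
        = Real.exp (disc k' u / t) * (∑ i, Real.exp (-(wdeg u (gs l i)) / m)) / I.S.N m := by
      unfold Iface.obj objF
      congr 1
      rw [Finset.mul_sum]
      refine Finset.sum_congr rfl fun i _ => ?_
      beta_reduce
      rw [← Real.exp_add, ← hord l m _ ((hini l).1.1 i), IniBasis.wOrd_eq (G' l) hu hw (hini l) i, hdisc]
      congr 1
      ring
    have h6 : I.obj m t G k u (ss l) ≤ I.obj m t G k u s := by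
      rw [← s5b_obj_congr (G' := G' l) (k' := k) rfl (hord l m) (hini l).1,
        ← s5b_obj_congr (G' := G' l) (k' := k) rfl (hord l m) hs]
      exact I.obj_iniBasis_le k hu hw (hini l) hs
    calc I.obj m t (G' l) k' (pertW u tn ε) (ss l)
        ≤ Real.exp (disc k' u / t) * (ρ * ∑ i, Real.exp (-(wdeg u (gs l i)) / m)) / I.S.N m := by
          refine h1.trans ?_
          refine div_le_div_of_nonneg_right ?_ hN0.le
          exact mul_le_mul_of_nonneg_left h4 (Real.exp_pos _).le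
      _ = ρ * I.obj m t G k u (ss l) := by rw [h5]; ring
      _ ≤ ρ * I.fval m t I.x := mul_le_mul_of_nonneg_left (h6.trans hmin) hρ0.le
  have hup := B.upper m hm t ht ht'
  have hc : ρ * I.fval m t I.x < 1 := by
    have : ρ * I.fval m t I.x ≤ 1 * I.fval m t I.x := mul_le_mul_of_nonneg_right hρ1.le hfv0
    linarith [B.hδ]
  have hfin := B.lsc_fval hm ht0 ht' y hy G' (fun _ => k') (fun _ => pertW u tn ε) ss
    (fun l => ⟨hTC l, pertW_nonneg hu tn hε0.le, pertW_ne_zero hu htest.2.2 tn hε0.le⟩)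
    (fun l => (hini l).1) (ρ * I.fval m t I.x) hc hobj
  have hκ := B.fval_ge hm ht0 ht' I.x
  have hpos : 0 < I.fval m t I.x := lt_of_lt_of_le B.hκ hκ
  nlinarith

/-- numerical data extracted from a minimizer whose centre is not a point -/
def Iface.NumBad (I : Iface K Pt) (t aS ϑ : ℝ) (m : ℕ) : Prop :=
  ∃ d : ℕ, 1 ≤ d ∧ d ≤ I.n ∧ ∃ (a : ℝ) (Q : ℕ → ℝ) (T : ℝ), aS ≤ a ∧
    Q m = (I.S.N m : ℝ) * I.fval m t I.x * Real.exp (-a / t) ∧
    (∀ j : ℕ, 1 ≤ j → j ≤ m → (I.S.N j : ℝ) * I.fval j t I.x * Real.exp (-((j : ℝ) * a) / (m * t)) ≤ Q j) ∧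
    (∀ (L : ℕ) (j : ℕ → ℕ), j L = m → (∀ i < L, j i + I.Hch d ≤ j (i + 1)) →
      (d : ℝ) * ∑ i ∈ Finset.range L, ((j (i + 1) : ℝ) - j i - I.Cch d) * Q (j i) ≤ (T + d / m) * (m * Q m)) ∧
    T < d * ϑ

theorem Iface.Bounds.bad_numeric (B : I.Bounds) {m : ℕ} (hm : B.m₀ ≤ m) {t : ℝ} (ht : B.t₀ ≤ t) (ht' : t ≤ I.n + 1)
    {ϑ : ℝ} (hϑ : 1 / t < ϑ) {G : GChart I.S I.n} {k : Fin I.n → ℕ} {u : Fin I.n → ℝ} {s : Fin (I.S.N m) → K}
    (htest : I.IsTest I.x G k u) (hs : I.S.IsBasis m s) (hmin : I.obj m t G k u s ≤ I.fval m t I.x)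
    (hpt : ¬ I.IsPt G (wsupp u)) : I.NumBad t B.aS ϑ m := by
  have ht0 : 0 < t := lt_of_lt_of_le B.ht₀ ht
  have hm1 : 1 ≤ m := le_trans B.hm₀ hm
  have hN := B.N_pos m hm
  obtain ⟨d, tn, k', y, G', hd, htn, hu0, hk1, hk2, hy, hall⟩ := I.tan G k u htest.1 htest.2.1 htest.2.2 hpt
  have hdn : d ≤ I.n := by simpa using Fintype.card_le_of_injective tn htn
  have hd0 : (0 : ℝ) < d := by exact_mod_cast hd
  set Lam : ℝ := ((d.factorial : ℝ) * I.S.N m) ^ (1 / (d : ℝ)) with hLamdef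
  have hLam : 0 < Lam := by
    have : (0 : ℝ) < (d.factorial : ℝ) * I.S.N m := by
      have h1 : (0 : ℝ) < d.factorial := by exact_mod_cast d.factorial_pos
      have h2 : (0 : ℝ) < I.S.N m := by exact_mod_cast hN
      positivity
    exact Real.rpow_pos_of_pos this _
  have hθ : (d : ℝ) / t < d * ϑ := by
    have := mul_lt_mul_of_pos_left hϑ hd0
    calc (d : ℝ) / t = d * (1 / t) := by ring
      _ < d * ϑ := this
  obtain ⟨l, hl⟩ := B.moment_upper hm ht ht' htest hs hmin htn hu0 hk1 hk2 hy (fun l => (hall l).1)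
    (fun l => (hall l).2.1) hLam hθ
  have hord := (hall l).2.1
  have hTan : I.TanChart u tn (G' l) := ⟨(hall l).2.2.1, (hall l).2.2.2.1, (hall l).2.2.2.2⟩
  have hle : I.obj m t G k u s ≤ 1 - B.δ / 2 := by
    have := B.upper m hm t ht ht'
    linarith [B.hδ]
  refine ⟨d, hd, hdn, disc k u, (G' l).Qsum u (tanW tn) m, (G' l).Tmom u (tanW tn) m Lam,
    (B.disc_bd m hm t ht0 ht' I.x G k u s htest hs hle).1, ?_, ?_, ?_, hl⟩
  · exact I.Qsum_eq htest (tanW_nonneg tn) hord hm1 hN hs hmin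
  · intro j hj _
    exact I.Qsum_ge htest (tanW_nonneg tn) hord hm1 hj
  · intro L j hjL hinc
    exact I.moment_chain hd htest.2.1 htn hu0 hTan hm1 hN le_rfl L j hjL hinc

/-- `N_j f_j / j^n` is eventually between two positive constants -/
theorem Iface.Bounds.Fs_bounds (B : I.Bounds) {t : ℝ} (ht : B.t₀ ≤ t) (ht' : t ≤ I.n + 1) :
    ∃ lo hi : ℝ, 0 < lo ∧ ∀ᶠ j : ℕ in atTop,
      lo ≤ (I.S.N j : ℝ) * I.fval j t I.x / (j : ℝ) ^ I.n ∧ (I.S.N j : ℝ) * I.fval j t I.x / (j : ℝ) ^ I.n ≤ hi := by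
  have ht0 : 0 < t := lt_of_lt_of_le B.ht₀ ht
  have hn0 : (0 : ℝ) < I.n := by exact_mod_cast I.hn
  have hfac : (0 : ℝ) < (I.n.factorial : ℝ) := by exact_mod_cast I.n.factorial_pos
  obtain ⟨M, hM⟩ := exists_nat_gt (2 * I.Clow)
  refine ⟨(1 / 2) ^ I.n / I.n.factorial * B.κ, |I.CN|, by have := B.hκ; positivity, ?_⟩
  filter_upwards [eventually_ge_atTop (max (max I.j₁ M) (max B.m₀ 1))] with j hj
  have hj1 : I.j₁ ≤ j := le_trans (le_trans (le_max_left _ _) (le_max_left _ _)) hj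
  have hjM : M ≤ j := le_trans (le_trans (le_max_right _ _) (le_max_left _ _)) hj
  have hjm : B.m₀ ≤ j := le_trans (le_trans (le_max_left _ _) (le_max_right _ _)) hj
  have hj1' : 1 ≤ j := le_trans (le_trans (le_max_right _ _) (le_max_right _ _)) hj
  have hj0 : (0 : ℝ) < j := by exact_mod_cast hj1'
  have hjn : (0 : ℝ) < (j : ℝ) ^ I.n := by positivity
  have hκ := B.fval_ge hjm ht0 ht' I.x
  have hup := B.upper j hjm t ht ht'
  have hN0 : (0 : ℝ) ≤ I.S.N j := Nat.cast_nonneg _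
  have hf0 : 0 ≤ I.fval j t I.x := le_trans B.hκ.le hκ
  have hf1 : I.fval j t I.x ≤ 1 := by linarith [B.hδ]
  constructor
  · have h1 := I.card_low j hj1
    have hMj : (M : ℝ) ≤ j := by exact_mod_cast hjM
    have h2 : (j : ℝ) / 2 ≤ ((I.n.factorial : ℝ) * I.S.N j) ^ (1 / (I.n : ℝ)) := by linarith
    have h3 : ((j : ℝ) / 2) ^ I.n ≤ (I.n.factorial : ℝ) * I.S.N j := by
      have h4 := pow_le_pow_left₀ (by positivity) h2 I.n
      have h5 : (((I.n.factorial : ℝ) * I.S.N j) ^ (1 / (I.n : ℝ))) ^ I.n = (I.n.factorial : ℝ) * I.S.N j := by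
        rw [one_div]
        exact Real.rpow_inv_natCast_pow (by positivity) (by have := I.hn; omega)
      rwa [h5] at h4
    rw [le_div_iff₀ hjn]
    have h6 : (1 / 2 : ℝ) ^ I.n / I.n.factorial * (j : ℝ) ^ I.n ≤ I.S.N j := by
      rw [div_mul_eq_mul_div, div_le_iff₀ hfac, ← mul_pow]
      calc (1 / 2 * (j : ℝ)) ^ I.n = ((j : ℝ) / 2) ^ I.n := by congr 1; ring
        _ ≤ (I.n.factorial : ℝ) * I.S.N j := h3
        _ = (I.S.N j : ℝ) * I.n.factorial := by ring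
    calc (1 / 2 : ℝ) ^ I.n / I.n.factorial * B.κ * (j : ℝ) ^ I.n
        = ((1 / 2 : ℝ) ^ I.n / I.n.factorial * (j : ℝ) ^ I.n) * B.κ := by ring
      _ ≤ (I.S.N j : ℝ) * I.fval j t I.x := mul_le_mul h6 hκ B.hκ.le hN0
  · rw [div_le_iff₀ hjn]
    calc (I.S.N j : ℝ) * I.fval j t I.x ≤ (I.S.N j : ℝ) * 1 := mul_le_mul_of_nonneg_left hf1 hN0
      _ = I.S.N j := mul_one _
      _ ≤ I.CN * (j : ℝ) ^ I.n := I.card_up j hj1'
      _ ≤ |I.CN| * (j : ℝ) ^ I.n := mul_le_mul_of_nonneg_right (le_abs_self _) hjn.le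

/-- **the limiting contradiction of Section 5.4**, purely numerical: `liminf_seq`, `pigeon_subseq` (on `d`), `center_limit`. -/
theorem center_contra (n : ℕ) (t aS ϑ : ℝ) (ht : 0 < t) (ht' : t < n + 1) (haS : 0 < aS)
    (hϑ : ϑ < ∫ s in (0 : ℝ)..1, s ^ n * Real.exp ((1 - s) * aS / (n + 1)))
    (Fs : ℕ → ℝ) (lo hi : ℝ) (hlo : 0 < lo)
    (hF : ∀ᶠ j : ℕ in atTop, lo ≤ Fs j / (j : ℝ) ^ n ∧ Fs j / (j : ℝ) ^ n ≤ hi)
    (C' : ℕ → ℝ) (H' : ℕ → ℕ) (M : ℕ)
    (hbad : ∀ m : ℕ, M ≤ m → ∃ d : ℕ, 1 ≤ d ∧ d ≤ n ∧ ∃ (a : ℝ) (Q : ℕ → ℝ) (T : ℝ), aS ≤ a ∧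
      Q m = Fs m * Real.exp (-a / t) ∧
      (∀ j : ℕ, 1 ≤ j → j ≤ m → Fs j * Real.exp (-((j : ℝ) * a) / (m * t)) ≤ Q j) ∧
      (∀ (L : ℕ) (j : ℕ → ℕ), j L = m → (∀ i < L, j i + H' d ≤ j (i + 1)) →
        (d : ℝ) * ∑ i ∈ Finset.range L, ((j (i + 1) : ℝ) - j i - C' d) * Q (j i) ≤ (T + d / m) * (m * Q m)) ∧
      T < d * ϑ) : False := by
  obtain ⟨c, hc, hliminf, ms, hms, hfm⟩ := liminf_seq (fun j => Fs j / (j : ℝ) ^ n) lo hi hlo hF
  have hge : ∀ k, M ≤ ms (k + M) := fun k => le_trans (Nat.le_add_left M k) (hms.le_apply)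
  have hex := fun k => hbad (ms (k + M)) (hge k)
  choose d hd1 hdn a Q T ha hQm hQj hchain hT using hex
  obtain ⟨d₀, hd₀, φ, hφ, hdφ⟩ := pigeon_subseq (Finset.Icc 1 n) d
    (fun k => Finset.mem_Icc.2 ⟨hd1 k, hdn k⟩)
  have hd₀1 : 1 ≤ d₀ := (Finset.mem_Icc.1 hd₀).1
  have hd₀0 : (0 : ℝ) < d₀ := by exact_mod_cast hd₀1
  have hsm : StrictMono fun k => ms (φ k + M) := by
    intro x y hxy
    exact hms (Nat.add_lt_add_right (hφ hxy) M)
  have hsub : Tendsto (fun k => φ k + M) atTop atTop :=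
    tendsto_atTop_mono (fun k => Nat.le_add_right _ _) hφ.tendsto_atTop
  have hfm' : Tendsto (fun k => Fs (ms (φ k + M)) / (ms (φ k + M) : ℝ) ^ n) atTop (𝓝 c) :=
    hfm.comp hsub
  have hfin := center_limit n d₀ hd₀1 t aS ht ht' haS Fs c hc hliminf (fun k => ms (φ k + M)) hsm hfm'
    (fun k => a (φ k)) (fun k => ha (φ k)) (fun k => Q (φ k)) (fun k => T (φ k)) (fun k => hQm (φ k)) 1
    (fun k j h1 h2 => hQj (φ k) j h1 h2) (C' d₀) (H' d₀)
    (fun k l j h1 h2 => by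
      have := hchain (φ k) l j h1 (by rw [hdφ k]; exact h2)
      rw [hdφ k] at this
      exact this)
    (d₀ * ϑ) (mul_lt_mul_of_pos_left hϑ hd₀0)
  obtain ⟨k, hk⟩ := hfin.exists
  have h := hT (φ k)
  rw [hdφ k] at h
  exact lt_irrefl _ (hk.trans h)

/-- **Proposition 5.1** -/
theorem Iface.Bounds.point_center (B : I.Bounds) : ∃ t : ℝ, B.t₀ < t ∧ t < I.n + 1 ∧ ∀ M : ℕ, ∃ m, M ≤ m ∧
    ∀ (G : GChart I.S I.n) (k : Fin I.n → ℕ) (u : Fin I.n → ℝ) (s : Fin (I.S.N m) → K), I.IsTest I.x G k u →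
      I.S.IsBasis m s → I.obj m t G k u s ≤ I.fval m t I.x → I.IsPt G (wsupp u) := by
  obtain ⟨t, h1, h2, h3, h4⟩ := exists_t I.n B.aS B.t₀ B.haS B.ht₀'
  refine ⟨t, h1, h3, ?_⟩
  by_contra hcon
  push Not at hcon
  obtain ⟨M, hM⟩ := hcon
  obtain ⟨ϑ, hϑ1, hϑ2⟩ := exists_between h4
  obtain ⟨lo, hi, hlo, hF⟩ := B.Fs_bounds h1.le h3.le
  refine center_contra I.n t B.aS ϑ h2 h3 B.haS hϑ2 (fun j => (I.S.N j : ℝ) * I.fval j t I.x) lo hi hlo hF
    I.Cch I.Hch (max M B.m₀) (fun m hm => ?_)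
  obtain ⟨G, k, u, s, a1, a2, a3, a4⟩ := hM m (le_trans (le_max_left _ _) hm)
  exact B.bad_numeric (le_trans (le_max_right _ _) hm) h1.le h3.le hϑ1 a1 a2 a3 a4

end Claimed.Agent.R242
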