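/-
R242 / Core / S6 : Section 6 of the paper on the contract: supporting functional, rigidity, isolation of the ray of the minimizer
among the finitely many cells, final lift.   Output: `Iface.main : I.Gen`.          Architect: helper100.

REAL coefficients throughout: no rational approximation (Lemma 6.1 of the paper is not needed).
-/
import Mathlib
import Claimed.Agent.R242.Core.S5b

set_option autoImplicit false

namespace Claimed.Agent.R242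

open Filter Topology Finset

theorem s6a_le_one {n : ℕ} (k : Fin n → ℕ) {u : Fin n → ℝ} (hu : ∀ i, 0 ≤ u i) (hd : disc k u = 1) (j : Fin n) :
    u j ≤ 1 := by
  have h1 : u j * (1 + (k j : ℝ)) ≤ disc k u :=
    Finset.single_le_sum (f := fun i => u i * (1 + (k i : ℝ)))
      (fun i _ => mul_nonneg (hu i) (by positivity)) (Finset.mem_univ j)
  have h2 : u j ≤ u j * (1 + (k j : ℝ)) := by
    nlinarith [hu j, (Nat.cast_nonneg (k j) : (0 : ℝ) ≤ k j)]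
  linarith

theorem s6a_cont_disc {n : ℕ} (k : Fin n → ℕ) : Continuous fun u : Fin n → ℝ => disc k u := by
  unfold disc
  fun_prop

theorem s6a_cont_ow {n N : ℕ} (o : Fin n → Fin N → ℕ) (i : Fin N) : Continuous fun u : Fin n → ℝ => ow o u i := by
  unfold ow
  fun_prop

theorem s6a_alt {N : ℕ} (b q q' : Fin N → ℝ) (hb : ∀ i, 0 < b i) (hq : ∀ i, 0 ≤ q i) (hq0 : ∃ i, 0 < q i)
    (hq' : ∀ i, 0 ≤ q' i) (hbq : ∑ i, b i * q i = 1) (hbq' : ∑ i, b i * q' i ≤ 1) (η : ℝ) (hη0 : 0 < η)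
    (hη1 : η < 1) :
    (∃ i, 0 < q i ∧ (1 - η) * ∑ i', b i' * q' i' + η * (q' i / q i) < 1) ∨ (∀ i, q' i = q i) := by
  obtain ⟨i₀, hi₀⟩ := hq0
  obtain ⟨i₁, hi₁, hmin⟩ := Finset.exists_min_image (Finset.univ.filter fun i => 0 < q i)
    (fun i => q' i / q i) ⟨i₀, Finset.mem_filter.2 ⟨Finset.mem_univ _, hi₀⟩⟩
  have hi₁' : 0 < q i₁ := (Finset.mem_filter.1 hi₁).2
  have hr := rigidity b q q' hb hq hq' hbq hbq' η (q' i₁ / q i₁) hη0 hη1 (fun i hi => by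
    have := hmin i (Finset.mem_filter.2 ⟨Finset.mem_univ _, hi⟩)
    rwa [le_div_iff₀ hi] at this)
  rcases hr.1.lt_or_eq with h | h
  · exact Or.inl ⟨i₁, hi₁', h⟩
  · exact Or.inr fun i => congrFun (hr.2 h) i

theorem s6a_iso_one {n N : ℕ} (k : Fin n → ℕ) (o : Fin n → Fin N → ℕ) (b q : Fin N → ℝ)
    (hq0 : ∃ i, 0 < q i) (hbq : ∑ i, b i * q i = 1) (η : ℝ)
    (h1 : ∀ u : Fin n → ℝ, (∀ i, 0 ≤ u i) → disc k u = 1 → ∀ μ : ℝ, 1 < μ → ¬ ∀ i, ow o u i = μ * q i) :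
    ∃ θ : ℝ, 0 < θ ∧ ∀ u : Fin n → ℝ, (∀ i, 0 ≤ u i) → disc k u = 1 →
      (∃ μ : ℝ, 0 < μ ∧ ∀ i, |ow o u i - μ * q i| ≤ θ * μ) →
      (∀ i, 0 < q i → 1 ≤ (1 - η) * ∑ i', b i' * ow o u i' + η * (ow o u i / q i)) →
      ∃ u₀ : Fin n → ℝ, (∀ i, 0 ≤ u₀ i) ∧ disc k u₀ = 1 ∧ ∀ i, ow o u₀ i = q i := by
  by_cases hQ : ∃ u₀ : Fin n → ℝ, (∀ i, 0 ≤ u₀ i) ∧ disc k u₀ = 1 ∧ ∀ i, ow o u₀ i = q i
  · exact ⟨1, one_pos, fun _ _ _ _ _ => hQ⟩
  by_contra hcon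
  obtain ⟨i₀, hi₀⟩ := hq0
  obtain ⟨θs, hθs⟩ : ∃ θs : ℕ → ℝ, θs = fun p : ℕ => min (1 / ((p : ℝ) + 1)) (q i₀ / 2) := ⟨_, rfl⟩
  have hθpos : ∀ p, 0 < θs p := by
    intro p
    rw [hθs]
    exact lt_min (by positivity) (by positivity)
  have hθle : ∀ p, θs p ≤ q i₀ / 2 := by
    intro p
    rw [hθs]
    exact min_le_right _ _
  have hθ0 : Tendsto θs atTop (𝓝 0) := by
    refine squeeze_zero (fun p => (hθpos p).le) (fun p => ?_) tendsto_one_div_add_atTop_nhds_zero_nat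
    rw [hθs]
    exact min_le_left _ _
  have hex : ∀ p, ∃ (u : Fin n → ℝ) (μ : ℝ), (∀ i, 0 ≤ u i) ∧ disc k u = 1 ∧ 0 < μ ∧
      (∀ i, |ow o u i - μ * q i| ≤ θs p * μ) ∧
      (∀ i, 0 < q i → 1 ≤ (1 - η) * ∑ i', b i' * ow o u i' + η * (ow o u i / q i)) := by
    intro p
    by_contra hp
    refine hcon ⟨θs p, hθpos p, fun u hu hd hμ hi => ?_⟩
    obtain ⟨μ, hμ, hc⟩ := hμ
    exact absurd ⟨u, μ, hu, hd, hμ, hc, hi⟩ hp
  choose u μ hu hd hμ hc hi using hex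
  obtain ⟨u0, hu0, φ, hφ, hlim⟩ := box_subseq 0 1 u (fun p i => ⟨hu p i, s6a_le_one k (hu p) (hd p) i⟩)
  have hμb : ∀ p, μ p ≤ 2 * (∑ j, (o j i₀ : ℝ)) / q i₀ := by
    intro p
    have h2 := (abs_le.1 (hc p i₀)).1
    have h3 : θs p * μ p ≤ q i₀ / 2 * μ p := mul_le_mul_of_nonneg_right (hθle p) (hμ p).le
    have h4 : ow o (u p) i₀ ≤ ∑ j, (o j i₀ : ℝ) := by
      unfold ow
      refine Finset.sum_le_sum fun j _ => ?_
      exact mul_le_of_le_one_left (Nat.cast_nonneg _) (s6a_le_one k (hu p) (hd p) j)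
    rw [le_div_iff₀ hi₀]
    nlinarith
  obtain ⟨μ0, -, ψ, hψ, hlimμ⟩ := real_subseq 0 (2 * (∑ j, (o j i₀ : ℝ)) / q i₀) (fun p => μ (φ p))
    (fun p => ⟨(hμ _).le, hμb _⟩)
  have hlimu : Tendsto (fun p => u (φ (ψ p))) atTop (𝓝 u0) := hlim.comp hψ.tendsto_atTop
  have hθlim : Tendsto (fun p => θs (φ (ψ p))) atTop (𝓝 0) :=
    hθ0.comp ((hφ.comp hψ).tendsto_atTop)
  have tow : ∀ i, Tendsto (fun p => ow o (u (φ (ψ p))) i) atTop (𝓝 (ow o u0 i)) := fun i =>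
    ((s6a_cont_ow o i).tendsto u0).comp hlimu
  have how : ∀ i, ow o u0 i = μ0 * q i := by
    intro i
    have t1 : Tendsto (fun p => |ow o (u (φ (ψ p))) i - μ (φ (ψ p)) * q i|) atTop
        (𝓝 |ow o u0 i - μ0 * q i|) := ((tow i).sub (hlimμ.mul_const _)).abs
    have t2 : Tendsto (fun p => θs (φ (ψ p)) * μ (φ (ψ p))) atTop (𝓝 (0 * μ0)) := hθlim.mul hlimμ
    have h5 := le_of_tendsto_of_tendsto' t1 t2 (fun p => hc _ i)
    rw [zero_mul] at h5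
    have h6 := abs_nonpos_iff.1 h5
    linarith
  have hd0 : disc k u0 = 1 := by
    have t : Tendsto (fun p => disc k (u (φ (ψ p)))) atTop (𝓝 (disc k u0)) :=
      ((s6a_cont_disc k).tendsto u0).comp hlimu
    simp only [hd] at t
    exact tendsto_nhds_unique t tendsto_const_nhds
  have hμ1 : 1 ≤ μ0 := by
    have t : Tendsto (fun p => (1 - η) * ∑ i', b i' * ow o (u (φ (ψ p))) i'
        + η * (ow o (u (φ (ψ p))) i₀ / q i₀)) atTop
        (𝓝 ((1 - η) * ∑ i', b i' * ow o u0 i' + η * (ow o u0 i₀ / q i₀))) :=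
      ((tendsto_finsetSum _ fun i' _ => (tow i').const_mul (b i')).const_mul _).add
        (((tow i₀).div_const _).const_mul _)
    have h7 := ge_of_tendsto' t (fun p => hi _ i₀ hi₀)
    have e1 : ∑ i', b i' * ow o u0 i' = μ0 := by
      have : ∑ i', b i' * ow o u0 i' = μ0 * ∑ i', b i' * q i' := by
        rw [Finset.mul_sum]
        refine Finset.sum_congr rfl fun i' _ => ?_
        rw [how i']
        ring
      rw [this, hbq, mul_one]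
    have e2 : ow o u0 i₀ / q i₀ = μ0 := by
      rw [how i₀]
      field_simp
    rw [e1, e2] at h7
    linarith
  rcases hμ1.lt_or_eq with h | h
  · exact h1 u0 (fun i => (hu0 i).1) hd0 μ0 h how
  · exact hQ ⟨u0, fun i => (hu0 i).1, hd0, fun i => by rw [how i, ← h, one_mul]⟩


theorem s6a_iso_norm {n N : ℕ} (𝒟 : Finset ((Fin n → ℕ) × (Fin n → Fin N → ℕ))) (b q : Fin N → ℝ)
    (hb : ∀ i, 0 < b i) (hq : ∀ i, 0 ≤ q i) (hq0 : ∃ i, 0 < q i) (hbq : ∑ i, b i * q i = 1) (η : ℝ) (hη0 : 0 < η)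
    (hη1 : η < 1)
    (h1 : ∀ ko ∈ 𝒟, ∀ u : Fin n → ℝ, (∀ i, 0 ≤ u i) → disc ko.1 u = 1 → ∀ μ : ℝ, 1 < μ →
      ¬ ∀ i, ow ko.2 u i = μ * q i)
    (h2 : ∀ ko ∈ 𝒟, (∃ u₀ : Fin n → ℝ, (∀ i, 0 ≤ u₀ i) ∧ disc ko.1 u₀ = 1 ∧ ∀ i, ow ko.2 u₀ i = q i) →
      ∀ u : Fin n → ℝ, (∀ i, 0 ≤ u i) → disc ko.1 u = 1 → ∑ i, b i * ow ko.2 u i ≤ 1) :
    ∃ θ : ℝ, 0 < θ ∧ ∀ ko ∈ 𝒟, ∀ u : Fin n → ℝ, (∀ i, 0 ≤ u i) → disc ko.1 u = 1 →
      (∃ μ : ℝ, 0 < μ ∧ ∀ i, |ow ko.2 u i - μ * q i| ≤ θ * μ) →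
      (∃ i, 0 < q i ∧ (1 - η) * ∑ i', b i' * ow ko.2 u i' + η * (ow ko.2 u i / q i) < 1) ∨
      (∀ i, ow ko.2 u i = q i) := by
  have hev : ∀ ko ∈ 𝒟, ∀ᶠ θ in 𝓝[>] (0 : ℝ), ∀ u : Fin n → ℝ, (∀ i, 0 ≤ u i) → disc ko.1 u = 1 →
      (∃ μ : ℝ, 0 < μ ∧ ∀ i, |ow ko.2 u i - μ * q i| ≤ θ * μ) →
      (∀ i, 0 < q i → 1 ≤ (1 - η) * ∑ i', b i' * ow ko.2 u i' + η * (ow ko.2 u i / q i)) →
      ∃ u₀ : Fin n → ℝ, (∀ i, 0 ≤ u₀ i) ∧ disc ko.1 u₀ = 1 ∧ ∀ i, ow ko.2 u₀ i = q i := by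
    intro ko hko
    obtain ⟨θ₀, hθ₀, hP⟩ := s6a_iso_one ko.1 ko.2 b q hq0 hbq η (h1 ko hko)
    filter_upwards [Ioc_mem_nhdsGT hθ₀] with θ hθ u hu hd hμ hi
    obtain ⟨μ, hμ, hc⟩ := hμ
    exact hP u hu hd ⟨μ, hμ, fun i => (hc i).trans (mul_le_mul_of_nonneg_right hθ.2 hμ.le)⟩ hi
  obtain ⟨θ, hθ, hpos⟩ := (((Filter.eventually_all_finset 𝒟).2 hev).and eventually_mem_nhdsWithin).exists
  refine ⟨θ, hpos, fun ko hko u hu hd hμ => ?_⟩
  by_cases halt : ∃ i, 0 < q i ∧ (1 - η) * ∑ i', b i' * ow ko.2 u i' + η * (ow ko.2 u i / q i) < 1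
  · exact Or.inl halt
  · push Not at halt
    have hQ := hθ ko hko u hu hd hμ halt
    exact s6a_alt b q (ow ko.2 u) hb hq hq0 (fun i => ow_nonneg ko.2 hu i) hbq (h2 ko hko hQ u hu hd) η hη0 hη1

/-- **Isolation of the ray `ℝ_{>0} q`** (numerical).  `𝒟` = numerical data of the cells.
 `h1`: no normalized weight vector of a cell has profile `μ q`, `μ > 1` (minimality);
 `h2`: supporting inequality on the cells that contain the profile `q`.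
Then there is an aperture `θ > 0` such that in the cone of aperture `θ` around the ray every weight vector either satisfies the strict
inequality `Λ(u) < 0` or lies on the ray with the right discrepancy.
PROOF: by contradiction with `θ_p = 1/(p+1)`: normalize `disc = 1`, `pigeon_subseq` on `𝒟`, `box_subseq` for the weights (in `[0,1]^n`),
`real_subseq` for `μ_p` (bounded because `μ_p (q_i - θ_p) ≤ ow_i`); the limit has profile `μ q` and `μ = (1-η) μ b·q + η μ ≥ 1`; `μ > 1` is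
excluded by `h1`; so `μ = 1`, `h2` applies to this `(k,o)`, and `rigidity` (with `mu` = the least ratio) gives `ow = q` for each `p`. -/
theorem cone_isolation {n N : ℕ} (𝒟 : Finset ((Fin n → ℕ) × (Fin n → Fin N → ℕ))) (b q : Fin N → ℝ)
    (hb : ∀ i, 0 < b i) (hq : ∀ i, 0 ≤ q i) (hq0 : ∃ i, 0 < q i) (hbq : ∑ i, b i * q i = 1) (η : ℝ) (hη0 : 0 < η)
    (hη1 : η < 1)
    (h1 : ∀ ko ∈ 𝒟, ∀ u : Fin n → ℝ, (∀ i, 0 ≤ u i) → disc ko.1 u = 1 → ∀ μ : ℝ, 1 < μ →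
      ¬ ∀ i, ow ko.2 u i = μ * q i)
    (h2 : ∀ ko ∈ 𝒟, (∃ u₀ : Fin n → ℝ, (∀ i, 0 ≤ u₀ i) ∧ disc ko.1 u₀ = 1 ∧ ∀ i, ow ko.2 u₀ i = q i) →
      ∀ u : Fin n → ℝ, (∀ i, 0 ≤ u i) → disc ko.1 u = 1 → ∑ i, b i * ow ko.2 u i ≤ 1) :
    ∃ θ : ℝ, 0 < θ ∧ ∀ ko ∈ 𝒟, ∀ u : Fin n → ℝ, (∀ i, 0 ≤ u i) → u ≠ 0 →
      (∃ μ : ℝ, 0 < μ ∧ ∀ i, |ow ko.2 u i - μ * q i| ≤ θ * μ) →
      (∃ i, 0 < q i ∧ (1 - η) * ∑ i', b i' * ow ko.2 u i' + η * (ow ko.2 u i / q i) < disc ko.1 u) ∨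
      (∀ i, ow ko.2 u i = disc ko.1 u * q i) := by
  obtain ⟨θ, hθ, hN⟩ := s6a_iso_norm 𝒟 b q hb hq hq0 hbq η hη0 hη1 h1 h2
  refine ⟨θ, hθ, fun ko hko u hu hu0 hμ => ?_⟩
  obtain ⟨μ, hμ, hc⟩ := hμ
  have hD : 0 < disc ko.1 u := disc_pos ko.1 hu hu0
  obtain ⟨D, hDdef⟩ : ∃ D : ℝ, D = disc ko.1 u := ⟨_, rfl⟩
  rw [← hDdef] at hD ⊢
  have hDi : 0 < D⁻¹ := inv_pos.2 hD
  have hu' : ∀ i, 0 ≤ D⁻¹ * u i := fun i => mul_nonneg hDi.le (hu i)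
  have hd' : disc ko.1 (fun i => D⁻¹ * u i) = 1 := by
    rw [disc_smul, ← hDdef]
    exact inv_mul_cancel₀ hD.ne'
  have how : ∀ i, ow ko.2 (fun j => D⁻¹ * u j) i = D⁻¹ * ow ko.2 u i := fun i => ow_smul ko.2 D⁻¹ u i
  have hres := hN ko hko (fun i => D⁻¹ * u i) hu' hd' ⟨D⁻¹ * μ, mul_pos hDi hμ, fun i => by
    rw [how i]
    have e : D⁻¹ * ow ko.2 u i - D⁻¹ * μ * q i = D⁻¹ * (ow ko.2 u i - μ * q i) := by ring
    rw [e, abs_mul, abs_of_pos hDi]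
    calc D⁻¹ * |ow ko.2 u i - μ * q i| ≤ D⁻¹ * (θ * μ) := mul_le_mul_of_nonneg_left (hc i) hDi.le
      _ = θ * (D⁻¹ * μ) := by ring⟩
  rcases hres with ⟨i, hi, hlt⟩ | heq
  · left
    refine ⟨i, hi, ?_⟩
    simp only [how] at hlt
    have e : (1 - η) * ∑ i', b i' * (D⁻¹ * ow ko.2 u i') + η * (D⁻¹ * ow ko.2 u i / q i) =
        D⁻¹ * ((1 - η) * ∑ i', b i' * ow ko.2 u i' + η * (ow ko.2 u i / q i)) := by
      have : ∑ i', b i' * (D⁻¹ * ow ko.2 u i') = D⁻¹ * ∑ i', b i' * ow ko.2 u i' := by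
        rw [Finset.mul_sum]
        exact Finset.sum_congr rfl fun i' _ => by ring
      rw [this]
      ring
    rw [e, inv_mul_lt_iff₀ hD, mul_one] at hlt
    exact hlt
  · right
    intro i
    have h3 := heq i
    rw [how i, inv_mul_eq_iff_eq_mul₀ hD.ne'] at h3
    exact h3

/-- choice of `η` for the budget -/
theorem exists_eta {N : ℕ} (q : Fin N → ℝ) (m t M : ℝ) (hm : 0 < m) (ht : 0 < t) (htM : t < M) :
    ∃ η : ℝ, 0 < η ∧ η < 1 ∧ ∀ i, 0 < q i → (1 - η) * t + η * (m / q i) < M := by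
  obtain ⟨A, hA⟩ : ∃ A : ℝ, A = ∑ i, (if 0 < q i then m / q i else 0) := ⟨_, rfl⟩
  have hterm : ∀ i, 0 ≤ (if 0 < q i then m / q i else 0) := by
    intro i
    split_ifs with h
    · positivity
    · exact le_rfl
  have hA0 : 0 ≤ A := by rw [hA]; exact Finset.sum_nonneg fun i _ => hterm i
  have hAi : ∀ i, 0 < q i → m / q i ≤ A := by
    intro i hi
    have := Finset.single_le_sum (f := fun i => if 0 < q i then m / q i else 0) (fun i _ => hterm i)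
      (Finset.mem_univ i)
    simp only [if_pos hi] at this
    rw [hA]
    exact this
  obtain ⟨η, hη⟩ : ∃ η : ℝ, η = min (1 / 2) ((M - t) / (2 * (A + 1))) := ⟨_, rfl⟩
  have hMt : 0 < M - t := by linarith
  have hη0 : 0 < η := by rw [hη]; exact lt_min (by norm_num) (by positivity)
  have hη1 : η ≤ 1 / 2 := by rw [hη]; exact min_le_left _ _
  have hη2 : η ≤ (M - t) / (2 * (A + 1)) := by rw [hη]; exact min_le_right _ _
  refine ⟨η, hη0, by linarith, fun i hi => ?_⟩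
  rw [le_div_iff₀ (by positivity)] at hη2
  have h1 : η * (m / q i) ≤ η * A := mul_le_mul_of_nonneg_left (hAi i hi) hη0.le
  nlinarith

variable {K : Type*} [Field K] [Algebra ℂ K] {Pt : Type*} [TopologicalSpace Pt] {I : Iface K Pt}

/-- every normalized weight vector of a cell, rescaled to discrepancy `a'`, is a test at `x` -/
theorem Iface.fval_le_Phi {m : ℕ} {t : ℝ} {s : Fin (I.S.N m) → K} (hs : I.S.IsBasis m s)
    {𝒟 : Finset ((Fin I.n → ℕ) × (Fin I.n → Fin (I.S.N m) → ℕ))} {G : GChart I.S I.n} {k : Fin I.n → ℕ}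
    {o : Fin I.n → Fin (I.S.N m) → ℕ} (hcell : I.IsCell m s 𝒟 G k o) {u : Fin I.n → ℝ} (hu : ∀ i, 0 ≤ u i)
    (hd : disc k u = 1) {a' : ℝ} (ha' : 0 < a') : I.fval m t I.x ≤ Phi (m : ℝ) t a' (ow o u) := by
  have hu' : ∀ i, 0 ≤ a' * u i := fun i => mul_nonneg ha'.le (hu i)
  have hda : disc k (fun i => a' * u i) = a' := by rw [disc_smul, hd, mul_one]
  have h0 : (fun i => a' * u i) ≠ 0 := by
    intro h0
    rw [h0] at hda
    simp [disc] at hda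
    exact ha'.ne hda
  have h1 : I.obj m t G k (fun i => a' * u i) s = Phi (m : ℝ) t a' (ow o u) :=
    I.obj_cell_Phi t k hu' hcell.2.2 hda (fun i => ow_smul o a' u i)
  rw [← h1]
  exact I.fval_le ⟨hcell.2.1, hu', h0⟩ hs

/-- **Section 6**: a minimizer in a cell, all of whose competitors are centred at the point, gives generation. -/
theorem Iface.Bounds.final (B : I.Bounds) {m : ℕ} (hm : B.m₀ ≤ m) {t : ℝ} (ht0 : B.t₀ ≤ t) (ht1 : t < I.n + 1)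
    (hpt : ∀ (G : GChart I.S I.n) (k : Fin I.n → ℕ) (u : Fin I.n → ℝ) (s : Fin (I.S.N m) → K), I.IsTest I.x G k u →
      I.S.IsBasis m s → I.obj m t G k u s ≤ I.fval m t I.x → I.IsPt G (wsupp u))
    {s : Fin (I.S.N m) → K} (hs : I.S.IsBasis m s)
    {𝒟 : Finset ((Fin I.n → ℕ) × (Fin I.n → Fin (I.S.N m) → ℕ))} (hLT : I.LT m s 𝒟)
    {G : GChart I.S I.n} {k : Fin I.n → ℕ} {o : Fin I.n → Fin (I.S.N m) → ℕ} {u : Fin I.n → ℝ}
    (hcell : I.IsCell m s 𝒟 G k o) (hu : ∀ i, 0 ≤ u i) (hu0 : u ≠ 0)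
    (hmin : I.obj m t G k u s ≤ I.fval m t I.x) : I.Gen := by
  classical
  have ht : 0 < t := lt_of_lt_of_le B.ht₀ ht0
  have hN := B.N_pos m hm
  have hm0 : (0 : ℝ) < m := by exact_mod_cast lt_of_lt_of_le (lt_of_lt_of_le Nat.zero_lt_one B.hm₀) hm
  obtain ⟨a, ha_def⟩ : ∃ a, a = disc k u := ⟨_, rfl⟩
  have ha : 0 < a := ha_def ▸ disc_pos k hu hu0
  obtain ⟨q, hq_def⟩ : ∃ q : Fin (I.S.N m) → ℝ, q = fun i => ow o u i / a := ⟨_, rfl⟩
  have hq : ∀ i, 0 ≤ q i := fun i => by rw [hq_def]; exact div_nonneg (ow_nonneg o hu i) ha.le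
  have howq : ∀ i, ow o u i = a * q i := fun i => by rw [hq_def]; field_simp
  have hobj : I.obj m t G k u s = Phi (m : ℝ) t a q := I.obj_cell_Phi t k hu hcell.2.2 ha_def.symm howq
  have hfv : I.fval m t I.x = Phi (m : ℝ) t a q :=
    le_antisymm (hobj ▸ I.fval_le ⟨hcell.2.1, hu, hu0⟩ hs) (hobj ▸ hmin)
  have hlt1 : Phi (m : ℝ) t a q < 1 := by
    rw [← hfv]
    have := B.upper m hm t ht0 ht1.le
    linarith [B.hδ]
  have hq0 := Phi_lt_one_pos hN ht ha hq hlt1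
  -- the normalized weights of the minimizer
  have hu₁ : ∀ i, 0 ≤ (1 / a) * u i := fun i => mul_nonneg (by positivity) (hu i)
  have hd₁ : disc k (fun i => (1 / a) * u i) = 1 := by
    rw [disc_smul, ← ha_def]; field_simp
  have how₁ : ow o (fun i => (1 / a) * u i) = q := funext fun i => by
    rw [ow_smul, hq_def]; ring
  -- the supporting functional
  obtain ⟨b, hb_def⟩ : ∃ b, b = bvec (m : ℝ) t a q := ⟨_, rfl⟩
  have hb : ∀ i, 0 < b i := fun i => hb_def ▸ bvec_pos (m : ℝ) t a hm0 ht q i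
  have hbsum : (m : ℝ) * ∑ i, b i = t := hb_def ▸ bvec_sum hN (m : ℝ) t a hm0 q
  have hbq : ∑ i, b i * q i = 1 := by
    rw [hb_def]
    refine bvec_dot_of_scale_min hN (m : ℝ) t a hm0 ht ha q (fun a' ha' => ?_)
    rw [← hfv, ← how₁]
    exact I.fval_le_Phi hs hcell hu₁ hd₁ ha'
  obtain ⟨η, hη0, hη1, hη⟩ := exists_eta q (m : ℝ) t (I.mm : ℝ) hm0 ht
    (lt_of_lt_of_le ht1 (by exact_mod_cast I.hmm))
  -- the numerical data that are realised by cells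
  obtain ⟨𝒟', h𝒟'⟩ : ∃ 𝒟', 𝒟' = 𝒟.filter (fun ko => ∃ G', I.TC I.x G' ko.1 ∧ MonoIn m s G' ko.2) := ⟨_, rfl⟩
  have hmem : ∀ ko ∈ 𝒟', ∃ G', I.IsCell m s 𝒟 G' ko.1 ko.2 := by
    intro ko hko
    rw [h𝒟', Finset.mem_filter] at hko
    obtain ⟨h1, G', h2, h3⟩ := hko
    exact ⟨G', h1, h2, h3⟩
  have h1 : ∀ ko ∈ 𝒟', ∀ u' : Fin I.n → ℝ, (∀ i, 0 ≤ u' i) → disc ko.1 u' = 1 → ∀ μ : ℝ, 1 < μ →
      ¬ ∀ i, ow ko.2 u' i = μ * q i := by
    intro ko hko u' hu' hd' μ hμ hcon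
    obtain ⟨G', hc'⟩ := hmem ko hko
    have h := I.fval_le_Phi (t := t) hs hc' hu' hd' ha
    have h' : ow ko.2 u' = fun i => μ * q i := funext hcon
    rw [h', hfv] at h
    exact absurd h (not_le.mpr (Phi_ray_lt hN (m : ℝ) t a μ hm0 ha hμ q hq hq0))
  have h2 : ∀ ko ∈ 𝒟', (∃ u₀ : Fin I.n → ℝ, (∀ i, 0 ≤ u₀ i) ∧ disc ko.1 u₀ = 1 ∧ ∀ i, ow ko.2 u₀ i = q i) →
      ∀ u' : Fin I.n → ℝ, (∀ i, 0 ≤ u' i) → disc ko.1 u' = 1 → ∑ i, b i * ow ko.2 u' i ≤ 1 := by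
    intro ko hko ⟨u₀, hu₀, hd₀, ho₀⟩ u' hu' hd'
    obtain ⟨G', hc'⟩ := hmem ko hko
    rw [← hbq, hb_def]
    refine bvec_dot_le_of_segment_min hN (m : ℝ) t a hm0 ht ha q (ow ko.2 u') (fun τ hτ0 hτ1 => ?_)
    have hseg : ∀ i, 0 ≤ (1 - τ) * u₀ i + τ * u' i := fun i =>
      add_nonneg (mul_nonneg (by linarith) (hu₀ i)) (mul_nonneg hτ0 (hu' i))
    have hdseg : disc ko.1 (fun i => (1 - τ) * u₀ i + τ * u' i) = 1 := by
      rw [disc_add ko.1 (fun i => (1 - τ) * u₀ i) (fun i => τ * u' i), disc_smul, disc_smul, hd₀, hd']; ring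
    have hoseg : ow ko.2 (fun i => (1 - τ) * u₀ i + τ * u' i) = fun i => (1 - τ) * q i + τ * ow ko.2 u' i :=
      funext fun i => by
        rw [ow_add ko.2 (fun i => (1 - τ) * u₀ i) (fun i => τ * u' i), ow_smul, ow_smul, ho₀]
    have h := I.fval_le_Phi (t := t) hs hc' hseg hdseg ha
    rw [hoseg, hfv] at h
    exact h
  obtain ⟨θ, hθ, hcone⟩ := cone_isolation 𝒟' b q hb hq hq0 hbq η hη0 hη1 h1 h2
  refine hLT b q η θ hb hq hq0 hη0 hη1 hθ (fun i hi => ?_) hbq ⟨G, k, o, u, hcell, hu, hu0, ?_⟩ ?_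
  · rw [hbsum]
    exact hη i hi
  · intro i
    rw [← ha_def]
    exact howq i
  · intro G' k' o' u' hc' hu' hu0' hμ
    have hko : (k', o') ∈ 𝒟' := by
      rw [h𝒟', Finset.mem_filter]
      exact ⟨hc'.1, G', hc'.2.1, hc'.2.2⟩
    rcases hcone (k', o') hko u' hu' hu0' hμ with h | h
    · exact Or.inl h
    · refine Or.inr ⟨h, ?_⟩
      have hd' : 0 < disc k' u' := disc_pos k' hu' hu0'
      have hc0 : 0 < a / disc k' u' := div_pos ha hd'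
      have htest : I.IsTest I.x G' k' (fun i => a / disc k' u' * u' i) :=
        Iface.IsTest.smul I ⟨hc'.2.1, hu', hu0'⟩ hc0
      have hobj' : I.obj m t G' k' (fun i => a / disc k' u' * u' i) s = Phi (m : ℝ) t a q := by
        refine I.obj_cell_Phi t k' htest.2.1 hc'.2.2 ?_ (fun i => ?_)
        · rw [disc_smul]; field_simp
        · rw [ow_smul, h i]; field_simp
      have := hpt G' k' _ s htest hs (by rw [hobj', hfv])
      rwa [wsupp_smul hc0.ne'] at this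

/-- **The abstract main theorem.** -/
theorem Iface.main (I : Iface K Pt) : I.Gen := by
  by_contra hG
  obtain ⟨B⟩ := I.exists_bounds hG
  obtain ⟨t, ht0, ht1, hpc⟩ := B.point_center
  obtain ⟨m, hm, hpt⟩ := hpc B.m₀
  obtain ⟨s, hs, hatt⟩ := B.attain hm ht0.le ht1.le
  obtain ⟨𝒟, hRL, hLT⟩ := I.mono' m s hs
  obtain ⟨G, k, o, u, hcell, hu, hu0, hmin⟩ := hatt 𝒟 hRL
  exact hG (B.final hm ht0.le ht1 hpt hs hLT hcell hu hu0 hmin)

end Claimed.Agent.R242
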